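import Vale.Agent.P237.All.CertTools
import Mathlib.Analysis.Real.Pi.Bounds

/-!
P237, every dimension, upper regime (`notes/P237h7/k0-analytic-02Dec.md`): the bound
`w semi y ≤ wide x`, `x = y √(p + 2)`, that `Reach` gives for `w = r⁻ᵖ`.
-/

noncomputable section

open MeasureTheory Set Filter Real intervalIntegral
open scoped Topology

namespace Vale.Agent.P237.All.Transport.Upper

/-- The denominator of the tail bound, in the scaled variable. -/
def mills (x : ℝ) : ℝ := x + 9 / 5 / (x + 111 / 50)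

/-- The lower bound on the mass up to the scaled point. -/
def core (x : ℝ) : ℝ := 1 - 1 / ((1 + x ^ 2 / 2 + x ^ 4 / 8) * (12533 / 10000) * mills x)

/-- The lower bound on the exponential of `17/20` times `core`. -/
def lift (x : ℝ) : ℝ := 1 + 17 / 20 * core x + (17 / 20 * core x) ^ 2 / 2

/-- The bound on `w semi y`. -/
def wide (x : ℝ) : ℝ := 20665 / 10000 * mills x / lift x

theorem mills_ge {x : ℝ} (hx : 0 ≤ x) : 30 / 37 ≤ mills x := by
  have h : 0 < x + 111 / 50 := by linarith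
  rw [mills, add_div' _ _ _ h.ne', le_div_iff₀ h]
  nlinarith

theorem mills_pos {x : ℝ} (hx : 0 ≤ x) : 0 < mills x := lt_of_lt_of_le (by norm_num) (mills_ge hx)

theorem mills_mono {x x' : ℝ} (hx : 0 ≤ x) (h : x ≤ x') : mills x ≤ mills x' := by
  have a : 0 < x + 111 / 50 := by linarith
  have b : 0 < x' + 111 / 50 := by linarith
  rw [mills, mills, add_div' _ _ _ a.ne', add_div' _ _ _ b.ne', div_le_div_iff₀ a b]
  nlinarith [mul_nonneg (sub_nonneg.2 h) (show (0 : ℝ) ≤ (x + 111 / 50) * (x' + 111 / 50) - 9 / 5 by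
    nlinarith)]

theorem core_mem {x : ℝ} (hx : 0 ≤ x) : core x ∈ Icc (0 : ℝ) 1 := by
  have hm := mills_ge hx
  have h : 1 ≤ (1 + x ^ 2 / 2 + x ^ 4 / 8) * (12533 / 10000) * mills x := by
    have : 1 ≤ 1 + x ^ 2 / 2 + x ^ 4 / 8 := by nlinarith [pow_nonneg hx 4]
    nlinarith
  have h1 : 1 / ((1 + x ^ 2 / 2 + x ^ 4 / 8) * (12533 / 10000) * mills x) ≤ 1 := by
    rw [div_le_one (by linarith)]; exact h
  have h0 : 0 ≤ 1 / ((1 + x ^ 2 / 2 + x ^ 4 / 8) * (12533 / 10000) * mills x) := by positivity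
  exact ⟨by rw [core]; linarith, by rw [core]; linarith⟩

theorem core_mono {x x' : ℝ} (hx : 0 ≤ x) (h : x ≤ x') : core x ≤ core x' := by
  have hm := mills_pos hx
  have hm' := mills_mono hx h
  have h2 : x ^ 2 ≤ x' ^ 2 := pow_le_pow_left₀ hx h 2
  have h4 : x ^ 4 ≤ x' ^ 4 := pow_le_pow_left₀ hx h 4
  refine sub_le_sub_left (one_div_le_one_div_of_le (by positivity) ?_) 1
  gcongr

theorem lift_mono {x x' : ℝ} (hx : 0 ≤ x) (h : x ≤ x') : lift x ≤ lift x' := by
  have := core_mono hx h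
  have := (core_mem hx).1
  unfold lift
  gcongr

theorem lift_pos {x : ℝ} (hx : 0 ≤ x) : 0 < lift x := by
  have := (core_mem hx).1
  unfold lift
  positivity

theorem wide_le {lo hi x : ℝ} (hlo : 0 ≤ lo) (h1 : lo ≤ x) (h2 : x ≤ hi) :
    wide x ≤ 20665 / 10000 * mills hi / lift lo := by
  have h0 := lift_pos hlo
  have hl := lift_mono hlo h1
  have hm := mills_mono (hlo.trans h1) h2
  have := mills_pos (hlo.trans h1)
  have := mills_pos (show 0 ≤ hi by linarith)
  unfold wide
  gcongr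

/-- The affine bound near the centre. -/
theorem wide_le_affine {x : ℝ} (hx : 0 ≤ x) (hx1 : x ≤ 4 / 5) : wide x ≤ 83 / 50 + 4 / 25 * x := by
  have hl := lift_pos hx
  rw [wide, div_le_iff₀ hl]
  have hg : 0 < x + 111 / 50 := by linarith
  simp only [lift, core, mills]
  rw [add_div' _ _ _ hg.ne']
  field_simp
  nlinarith [pow_nonneg hx 3, pow_nonneg hx 4, pow_nonneg hx 5, sq_nonneg (x - 1 / 10),
    pow_le_pow_left₀ hx hx1 1, mul_nonneg (pow_nonneg hx 5) (sub_nonneg.2 hx1),
    mul_nonneg (pow_nonneg hx 6) (sub_nonneg.2 hx1), mul_nonneg (pow_nonneg hx 7) (sub_nonneg.2 hx1),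
    mul_nonneg (pow_nonneg hx 8) (sub_nonneg.2 hx1), mul_nonneg (pow_nonneg hx 9) (sub_nonneg.2 hx1),
    mul_nonneg (pow_nonneg hx 10) (sub_nonneg.2 hx1), mul_nonneg (pow_nonneg hx 11) (sub_nonneg.2 hx1),
    mul_nonneg (pow_nonneg hx 12) (sub_nonneg.2 hx1), mul_nonneg (pow_nonneg hx 13) (sub_nonneg.2 hx1),
    mul_nonneg (pow_nonneg hx 4) (sub_nonneg.2 hx1), mul_nonneg (pow_nonneg hx 3) (sub_nonneg.2 hx1)]

/-- The sharper lower bound on the tail. -/
theorem tail_ge2 (p : ℕ) {y : ℝ} (hy : y ∈ Icc (0 : ℝ) 1) :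
    semi y ^ (p + 2) / (mass p semi 1 * √((p : ℝ) + 2) * mills (√((p : ℝ) + 2) * y)) ≤
      tailFrac p y := by
  have hP := mass_one_pos isProfile_semi p
  set A : ℝ := (p : ℝ) + 2 with hA
  have hA0 : 0 < A := by positivity
  have hsA : 0 < √A := Real.sqrt_pos.2 hA0
  set G : ℝ → ℝ := fun u =>
    mass p semi 1 - mass p semi u - semi u ^ (p + 2) / (√A * mills (√A * u)) with hG
  have hden : ∀ u, 0 ≤ u → 0 < √A * mills (√A * u) := fun u hu =>
    mul_pos hsA (mills_pos (mul_nonneg hsA.le hu))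
  have hne : ∀ u : ℝ, 0 ≤ u → √A * u + 111 / 50 ≠ 0 := fun u hu => by positivity
  have hc : ContinuousOn G (Icc 0 1) := by
    refine (continuousOn_const.sub (Continuous.continuousOn (continuous_iff_continuousAt.2
      fun u => (semi_mass_hasDerivAt p u).continuousAt))).sub
      (((semi_continuous.pow _).continuousOn).div ?_ fun u hu => (hden u hu.1).ne')
    exact continuousOn_const.mul ((continuousOn_const.mul continuousOn_id).add
      (continuousOn_const.div (by fun_prop) fun u hu => hne u hu.1))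
  have hd : ∀ u ∈ Ioo (0 : ℝ) 1, HasDerivAt G (-semi u ^ p + semi u ^ p *
      (A * u * (√A * mills (√A * u)) + semi u ^ 2 * A *
        (1 - 9 / 5 / (√A * u + 111 / 50) ^ 2)) / (√A * mills (√A * u)) ^ 2) u := by
    intro u hu
    have hu' : u ∈ Ioo (-1 : ℝ) 1 := ⟨by linarith [hu.1], hu.2⟩
    have hl := ((hasDerivAt_id u).const_mul √A).add_const (111 / 50 : ℝ)
    have hden' := (((hasDerivAt_id u).const_mul √A).add
      ((hasDerivAt_const u (9 / 5 : ℝ)).div hl (hne u hu.1.le))).const_mul √A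
    have h := ((semi_mass_hasDerivAt p u).const_sub (mass p semi 1)).sub
      (((semi_hasDerivAt hu').pow (p + 2)).div hden' (hden u hu.1.le).ne')
    refine h.congr_deriv ?_
    have hs0 := (semi_pos hu').ne'
    have hd0 := (hden u hu.1.le).ne'
    have hn := hne u hu.1.le
    have hq := sq_sqrt hA0.le
    simp only [Pi.pow_apply, Pi.add_apply, Pi.div_apply, id_eq, mul_one, zero_mul, zero_sub,
      show p + 2 - 1 = p + 1 from rfl, Nat.cast_add, Nat.cast_ofNat, ← hA, mills] at hd0 hn ⊢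
    generalize hs : √A = s at hd0 hn hq ⊢
    rw [← hq]
    field_simp
    ring
  have hanti : AntitoneOn G (Icc 0 1) := by
    refine antitoneOn_of_deriv_nonpos (convex_Icc _ _) hc ?_ ?_
    · intro u hu; rw [interior_Icc] at hu; exact (hd u hu).differentiableAt.differentiableWithinAt
    · intro u hu
      rw [interior_Icc] at hu
      rw [(hd u hu).deriv, neg_add_nonpos_iff, mul_div_assoc]
      refine mul_le_of_le_one_right (pow_nonneg (Real.sqrt_nonneg _) _) ?_
      rw [div_le_one (pow_pos (hden u hu.1.le) 2), mul_pow, sq_sqrt hA0.le]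
      set x := √A * u with hx
      have hx0 : 0 ≤ x := mul_nonneg hsA.le hu.1.le
      have e : A * u * (√A * mills x) = A * (x * mills x) := by rw [hx]; ring
      rw [e, semi_sq ⟨by linarith [hu.1], hu.2.le⟩]
      have hg : 0 < x + 111 / 50 := by linarith
      have hd1 : 0 ≤ 1 - 9 / 5 / (x + 111 / 50) ^ 2 := by
        rw [sub_nonneg, div_le_one (by positivity)]; nlinarith
      have key : x * mills x + (1 - 9 / 5 / (x + 111 / 50) ^ 2) ≤ mills x ^ 2 := by
        simp only [mills]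
        field_simp
        nlinarith [sq_nonneg (x - 111 / 400)]
      nlinarith [mul_le_mul_of_nonneg_left key hA0.le,
        mul_le_mul_of_nonneg_left (mul_le_of_le_one_left hd1 (show (1 - u ^ 2) ≤ 1 by nlinarith)) hA0.le]
  have h := hanti hy (right_mem_Icc.2 zero_le_one) hy.2
  have h1 : G 1 = 0 := by
    simp [hG, show semi 1 = 0 by simp [semi], zero_pow (show p + 2 ≠ 0 by omega)]
  rw [h1] at h
  rw [tailFrac, mul_assoc, mul_comm (mass p semi 1), ← div_div]
  exact div_le_div_of_nonneg_right (by simp only [hG] at h; linarith) hP.le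

theorem scaled_mass_mem (p : ℕ) :
    12533 / 10000 ≤ mass p semi 1 * √((p : ℝ) + 2) ∧
      log (mass p semi 1 * √((p : ℝ) + 2)) ≤ log (125332 / 100000) + 1 / (4 * ((p : ℝ) + 1)) := by
  have h0 := mass_one_pos isProfile_semi p
  have h1 := mass_one_pos isProfile_semi (p + 1)
  have hw := mass_semi_mul p
  set A : ℝ := (p : ℝ) + 2 with hA
  have hA0 : 0 < A := by positivity
  have hP : mass p semi 1 * mass (p + 1) semi 1 * A = π / 2 := by rw [hw]; field_simp
  have e2 : (mass p semi 1 * √A) ^ 2 = mass p semi 1 ^ 2 * A := by rw [mul_pow, sq_sqrt hA0.le]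
  have hpos : 0 < mass p semi 1 * √A := by positivity
  constructor
  · refine (pow_le_pow_iff_left₀ (by norm_num) hpos.le two_ne_zero).1 ?_
    rw [e2]
    nlinarith [Real.pi_gt_d6, mul_le_mul_of_nonneg_left (mass_semi_anti p) (mul_nonneg h0.le hA0.le)]
  · have hr := mass_ratio_le p
    rw [div_le_iff₀ h1] at hr
    have h2 : (mass p semi 1 * √A) ^ 2 ≤ (125332 / 100000) ^ 2 * exp (1 / (2 * ((p : ℝ) + 1))) := by
      rw [e2]
      calc mass p semi 1 ^ 2 * A
          ≤ mass p semi 1 * (exp (1 / (2 * ((p : ℝ) + 1))) * mass (p + 1) semi 1) * A := by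
            rw [sq]; gcongr
        _ = π / 2 * exp (1 / (2 * ((p : ℝ) + 1))) := by rw [← hP]; ring
        _ ≤ _ := mul_le_mul_of_nonneg_right (by nlinarith [Real.pi_lt_d4]) (exp_pos _).le
    have h3 := Real.log_le_log (pow_pos hpos 2) h2
    rw [Real.log_pow, Real.log_mul (by norm_num) (exp_pos _).ne', Real.log_exp, Real.log_pow] at h3
    push_cast at h3
    rw [show 1 / (4 * ((p : ℝ) + 1)) = 1 / (2 * ((p : ℝ) + 1)) / 2 by field_simp; ring]
    linarith

theorem core_cost {x : ℝ} (hx : 0 ≤ x) :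
    1 / 2 + 18 / 25 * core x ≤ 1 / 2 + log (125332 / 100000) + log (mills x) := by
  have hD := mills_pos hx
  have hge := mills_ge hx
  have b1 : (147 / 10000 : ℝ) ≤ log (125332 / 100000) + log (30 / 37) := by
    have h1 := Real.le_log_one_add_of_nonneg (show (0 : ℝ) ≤ 25332 / 100000 by norm_num)
    norm_num at h1
    have hc : log (125332 / 100000 : ℝ) ≥ 2248 / 10000 := by
      norm_num
      linarith
    have hd : -(2101 / 10000) ≤ log (30 / 37 : ℝ) := by
      have e : exp (2101 / 10000 : ℝ) ≥ 37 / 30 := by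
        have := Real.sum_le_exp_of_nonneg (show (0 : ℝ) ≤ 2101 / 10000 by norm_num) 5
        simp [Finset.sum_range_succ, Nat.factorial] at this
        linarith
      have := Real.log_le_log (by norm_num) e
      rw [Real.log_exp, show (37 / 30 : ℝ) = (30 / 37)⁻¹ by norm_num, Real.log_inv] at this
      linarith
    linarith
  have h2 : 2 * (mills x - 30 / 37) / (mills x + 30 / 37) ≤ log (mills x) - log (30 / 37) := by
    have h := Real.le_log_one_add_of_nonneg (show 0 ≤ mills x * (37 / 30) - 1 by linarith)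
    rw [add_sub_cancel, Real.log_mul hD.ne' (by norm_num),
      show (37 / 30 : ℝ) = (30 / 37)⁻¹ by norm_num, Real.log_inv] at h
    refine le_trans (le_of_eq ?_) h
    rw [inv_div, div_eq_div_iff (by linarith) (by linarith)]
    ring
  suffices 18 / 25 * core x ≤ 147 / 10000 + 2 * (mills x - 30 / 37) / (mills x + 30 / 37) by linarith
  have hg : 0 < x + 111 / 50 := by linarith
  simp only [core, mills]
  field_simp
  nlinarith [pow_nonneg hx 2, pow_nonneg hx 3, pow_nonneg hx 4, pow_nonneg hx 5, pow_nonneg hx 6,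
    pow_nonneg hx 7, pow_nonneg hx 8]

theorem exponent_le {p C z L : ℝ} (hp : 2 ≤ p) (hz : z ∈ Icc (0 : ℝ) 1) (hL : 0 ≤ L)
    (hC : 1 / 2 + 18 / 25 * z ≤ C) :
    p / (p + 1) * (C + 1 / (4 * (p + 1)) + L) - p / (p + 2) * z ≤ C + L - 17 / 20 * z := by
  have h1 : p / (p + 1) * L ≤ L :=
    mul_le_of_le_one_left hL ((div_le_one (by linarith)).2 (by linarith))
  suffices h : p / (p + 1) / (4 * (p + 1)) + (17 / 20 - p / (p + 2)) * z ≤ 1 / (p + 1) * C by
    have e : p / (p + 1) * (C + 1 / (4 * (p + 1)) + L) =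
        C - 1 / (p + 1) * C + p / (p + 1) / (4 * (p + 1)) + p / (p + 1) * L := by
      field_simp; ring
    linarith
  refine le_trans ?_ (mul_le_mul_of_nonneg_left hC (by positivity))
  have a : p / (p + 1) / (4 * (p + 1)) ≤ 1 / (p + 1) * (1 / 2) := by
    field_simp
    nlinarith
  have b : p / (p + 1) / (4 * (p + 1)) + (17 / 20 - p / (p + 2)) ≤
      1 / (p + 1) * (1 / 2 + 18 / 25) := by
    field_simp
    nlinarith [mul_nonneg (sub_nonneg.2 hp) (sq_nonneg (p - 2)), sq_nonneg (p - 2 - 1 / 94)]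
  nlinarith [mul_le_mul_of_nonneg_left b hz.1, mul_le_mul_of_nonneg_left a (sub_nonneg.2 hz.2)]

/-- `Reach` bounds `w semi y`. -/
theorem reach_wide {p : ℕ} (hp : 2 ≤ p) {y r : ℝ} (hy : y ∈ Ioo (0 : ℝ) 1) (hr : 0 < r)
    (h : Reach p y r) : (r ^ p)⁻¹ * semi y ≤ wide (√((p : ℝ) + 2) * y) := by
  have hs := semi_pos (t := y) ⟨by linarith [hy.1], hy.2⟩
  have hp2 : (2 : ℝ) ≤ p := by exact_mod_cast hp
  set x := √((p : ℝ) + 2) * y with hx
  have hx0 : 0 ≤ x := by have := hy.1; positivity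
  obtain ⟨hPlo, hPhi⟩ := scaled_mass_mem p
  set Q := mass p semi 1 * √((p : ℝ) + 2) with hQ
  have hQ0 : 0 < Q := lt_of_lt_of_le (by norm_num) hPlo
  have hD := mills_pos hx0
  set v₀ := semi y ^ (p + 2) / (Q * mills x) with hv₀
  have hv : v₀ ≤ 1 - core x := by
    have hq : semi y ^ (p + 2) * (1 + x ^ 2 / 2 + x ^ 4 / 8) ≤ 1 := by
      have he := Real.quadratic_le_exp_of_nonneg (show (0 : ℝ) ≤ x ^ 2 / 2 by positivity)
      have hsq : (semi y ^ (p + 2)) ^ 2 ≤ exp (-(x ^ 2 / 2)) ^ 2 := by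
        rw [← pow_mul, mul_comm, pow_mul, semi_sq ⟨by linarith [hy.1], hy.2.le⟩]
        refine (pow_le_pow_left₀ (by nlinarith [hy.1, hy.2]) (Real.one_sub_le_exp_neg (y ^ 2)) _).trans
          (le_of_eq ?_)
        rw [← Real.exp_nat_mul, ← Real.exp_nat_mul, hx, mul_pow, sq_sqrt (by positivity)]
        congr 1; push_cast; ring
      have h' := (pow_le_pow_iff_left₀ (pow_nonneg hs.le _) (exp_pos _).le two_ne_zero).1 hsq
      refine (mul_le_mul h' (le_trans (le_of_eq (by ring)) he) (by positivity) (exp_pos _).le).trans ?_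
      rw [← Real.exp_add, neg_add_cancel, Real.exp_zero]
    rw [core, sub_sub_cancel, hv₀, div_le_div_iff₀ (by positivity) (by positivity)]
    calc semi y ^ (p + 2) * ((1 + x ^ 2 / 2 + x ^ 4 / 8) * (12533 / 10000) * mills x)
        = semi y ^ (p + 2) * (1 + x ^ 2 / 2 + x ^ 4 / 8) * (12533 / 10000 * mills x) := by ring
      _ ≤ 1 * (Q * mills x) := by gcongr
  have hl := reach_log_le' p hy hr h (div_pos (pow_pos hs _) (by positivity))
    (tail_ge2 p (Ioo_subset_Icc_self hy))
  rw [← hx, ← hQ, ← hv₀] at hl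
  have hls : log v₀ = ((p : ℝ) + 2) * log (semi y) - (log Q + log (mills x)) := by
    rw [hv₀, Real.log_div (pow_pos hs _).ne' (by positivity), Real.log_pow,
      Real.log_mul hQ0.ne' hD.ne']
    push_cast; ring
  have hLs : 0 ≤ -log (semi y) := by
    rw [neg_nonneg]
    exact Real.log_nonpos hs.le (Real.sqrt_le_one.2 (by nlinarith [sq_nonneg y]))
  have hexp := exponent_le hp2 (core_mem hx0) hLs (core_cost hx0)
  have hl' : -((p : ℝ) * log r) ≤
      1 / 2 + log (125332 / 100000) + log (mills x) + -log (semi y) - 17 / 20 * core x := by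
    refine hl.trans (le_trans ?_ hexp)
    rw [hls]
    have hA : (0 : ℝ) < (p : ℝ) + 2 := by linarith
    have hm : (0 : ℝ) < (p : ℝ) + 1 := by linarith
    have h3 := mul_le_mul_of_nonneg_left hPhi (div_nonneg (show (0 : ℝ) ≤ p by linarith) hm.le)
    have h4 := mul_le_mul_of_nonneg_left (show core x ≤ 1 - v₀ by linarith)
      (div_nonneg (show (0 : ℝ) ≤ p by linarith) hA.le)
    have e : (p : ℝ) * (log (semi y) + 1 / (2 * ((p : ℝ) + 1)) -
        (((p : ℝ) + 2) * log (semi y) - (log Q + log (mills x))) / ((p : ℝ) + 1) -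
        (1 - v₀) / ((p : ℝ) + 2)) = (p : ℝ) / ((p : ℝ) + 1) *
        (1 / 2 + log (mills x) + -log (semi y)) + (p : ℝ) / ((p : ℝ) + 1) * log Q -
        (p : ℝ) / ((p : ℝ) + 2) * (1 - v₀) := by
      field_simp; ring
    linarith
  have h5 := exp_le_exp.2 (add_le_add_right hl' (log (semi y)))
  rw [← Real.log_pow, ← Real.log_inv, Real.exp_add (log (semi y)) (log (r ^ p)⁻¹),
    Real.exp_log hs, Real.exp_log (inv_pos.2 (pow_pos hr p)), mul_comm, add_comm (log (semi y))] at h5
  refine h5.trans ?_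
  have hc := (core_mem hx0).1
  have e1 : exp (1 / 2 + log (125332 / 100000) + log (mills x) + -log (semi y) - 17 / 20 * core x +
      log (semi y)) = exp (1 / 2) * (125332 / 100000) * mills x / exp (17 / 20 * core x) := by
    rw [show (1 / 2 : ℝ) + log (125332 / 100000) + log (mills x) + -log (semi y) - 17 / 20 * core x +
      log (semi y) = 1 / 2 + log (125332 / 100000) + log (mills x) - 17 / 20 * core x by ring,
      Real.exp_sub, Real.exp_add, Real.exp_add, Real.exp_log (by norm_num), Real.exp_log hD]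
  rw [e1, wide]
  have hh : exp (1 / 2 : ℝ) ≤ 16488 / 10000 := by
    refine (pow_le_pow_iff_left₀ (exp_pos _).le (by norm_num) two_ne_zero).1 ?_
    rw [← Real.exp_nat_mul, show ((2 : ℕ) : ℝ) * (1 / 2) = 1 by norm_num]
    linarith [Real.exp_one_lt_d9]
  have hlift : lift x ≤ exp (17 / 20 * core x) :=
    le_trans (le_of_eq (by rw [lift])) (Real.quadratic_le_exp_of_nonneg (by positivity))
  have := lift_pos hx0
  gcongr
  linarith

end Vale.Agent.P237.All.Transport.Upper
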