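import Vale.Agent.P237.All.Upper.Core
import Vale.Agent.P237.All.Upper.Tail

/-!
P237, every dimension, upper regime: the inequality of a box in `(x, t)`, `x = y √(p + 2)`,
`t = 1 / (p + 2)`, bounds the inner function on the box.
-/

noncomputable section

namespace Vale.Agent.P237.All.Transport.Upper

/-- The lower bound on `aC`. -/
def aLo (t : ℝ) : ℝ := (9 / 5 - 2 / 5 * t) / (1 + t)

/-- The lower bound on `bC t`. -/
def betaLo (t : ℝ) : ℝ := 3 / 20 + 947 / 1000 * t + 3877 / 1000 * t ^ 2 / (1 - t)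

/-- `1 / p` in `t`. -/
def ipT (t : ℝ) : ℝ := t / (1 - 2 * t)

/-- `eC t` in `t`. -/
def eT (t : ℝ) : ℝ := 9 / 10 - 1 / 5 * t

/-- The lower bound on the factor of `s ^ 2 / w` in the deficit. -/
def kLo (t0 t1 w : ℝ) : ℝ := (aLo t1 * w + 4) / (1 + w) + aLo t1 * ipT t0 / w

/-- The bound on the inner function, times `1 - y ^ 2`. -/
def errNum (p : ℕ) (κ u : ℝ) : ℝ :=
  ((pC p + eC p ^ 2 / sC p) * u - 8 / 5) ^ 2 /
    (4 * (2 * p * ((p : ℝ) + 1) - (5 / 4 - aC p / 2) * (p : ℝ) ^ 2)) + κ / (p : ℝ) ^ 2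

theorem t_mem {p : ℕ} (hp : 2 ≤ p) :
    0 < 1 / ((p : ℝ) + 2) ∧ 1 / ((p : ℝ) + 2) ≤ 1 / 4 := by
  have hp2 : (2 : ℝ) ≤ p := by exact_mod_cast hp
  exact ⟨by positivity, one_div_le_one_div_of_le (by norm_num) (by linarith)⟩

theorem aC_ge {p : ℕ} {t1 : ℝ} (ht : 1 / ((p : ℝ) + 2) ≤ t1) : aLo t1 ≤ aC p := by
  have h0 : 0 < 1 / ((p : ℝ) + 2) := by positivity
  have e : aC p = aLo (1 / ((p : ℝ) + 2)) := by
    simp only [aC, aLo, eC]; field_simp; ring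
  rw [e, aLo, aLo, div_le_div_iff₀ (by linarith) (by linarith)]
  nlinarith

theorem eC_t {p : ℕ} {t0 : ℝ} (ht : t0 ≤ 1 / ((p : ℝ) + 2)) :
    eC p * (1 / ((p : ℝ) + 2)) ≤ eT t0 := by
  have e : eC p * (1 / ((p : ℝ) + 2)) = eT (1 / ((p : ℝ) + 2)) := by
    simp only [eC, eT]; field_simp; ring
  rw [e, eT, eT]; linarith

theorem inv_p_mem {p : ℕ} (hp : 2 ≤ p) {t0 t1 : ℝ} (ht0 : t0 ≤ 1 / ((p : ℝ) + 2))
    (ht1 : 1 / ((p : ℝ) + 2) ≤ t1) (h1 : t1 ≤ 1 / 4) :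
    ipT t0 ≤ 1 / (p : ℝ) ∧ 1 / (p : ℝ) ≤ ipT t1 := by
  obtain ⟨h0, h4⟩ := t_mem hp
  have hp2 : (2 : ℝ) ≤ p := by exact_mod_cast hp
  have e : 1 / (p : ℝ) = ipT (1 / ((p : ℝ) + 2)) := by
    have : (p : ℝ) ≠ 0 := by linarith
    rw [ipT, show 1 - 2 * (1 / ((p : ℝ) + 2)) = (p : ℝ) / ((p : ℝ) + 2) by field_simp; ring]
    field_simp
  rw [e]; simp only [ipT]
  constructor <;> rw [div_le_div_iff₀ (by linarith) (by linarith)] <;> nlinarith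

theorem bC_t {p : ℕ} (hp : 2 ≤ p) {t0 : ℝ} (h0 : 0 ≤ t0) (ht : t0 ≤ 1 / ((p : ℝ) + 2)) :
    betaLo t0 ≤ bC p * (1 / ((p : ℝ) + 2)) := by
  obtain ⟨hpos, h4⟩ := t_mem hp
  have hp2 : (2 : ℝ) ≤ p := by exact_mod_cast hp
  have hm : betaLo t0 ≤ betaLo (1 / ((p : ℝ) + 2)) := by
    have : t0 ^ 2 / (1 - t0) ≤ (1 / ((p : ℝ) + 2)) ^ 2 / (1 - 1 / ((p : ℝ) + 2)) :=
      div_le_div₀ (sq_nonneg _) (pow_le_pow_left₀ h0 ht 2) (by linarith) (by linarith)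
    simp only [betaLo, mul_div_assoc]
    linarith
  refine hm.trans ?_
  have key : 3 / 20 * ((p : ℝ) + 2) + 947 / 1000 + 3877 / 1000 / ((p : ℝ) + 1) ≤ bC p := by
    simp only [bC]
    field_simp
    nlinarith
  refine le_trans (le_of_eq ?_) (mul_le_mul_of_nonneg_right key hpos.le)
  have : 1 - 1 / ((p : ℝ) + 2) ≠ 0 := by linarith
  rw [betaLo, show 1 - 1 / ((p : ℝ) + 2) = ((p : ℝ) + 1) / ((p : ℝ) + 2) by field_simp; ring]
  field_simp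

theorem pC_t {p : ℕ} (hp : 2 ≤ p) {t1 : ℝ} (ht : 1 / ((p : ℝ) + 2) ≤ t1) :
    33 / 10 - 33 / 25 * t1 ≤ pC p * (1 / ((p : ℝ) + 2)) := by
  have h0 : 0 < 1 / ((p : ℝ) + 2) := by positivity
  have hp2 : (2 : ℝ) ≤ p := by exact_mod_cast hp
  have key : 33 / 10 * ((p : ℝ) + 2) - 33 / 25 ≤ pC p := by
    simp only [pC, aC, eC]
    field_simp
    nlinarith
  have := mul_le_mul_of_nonneg_right key h0.le
  have e : (33 / 10 * ((p : ℝ) + 2) - 33 / 25) * (1 / ((p : ℝ) + 2)) =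
      33 / 10 - 33 / 25 * (1 / ((p : ℝ) + 2)) := by field_simp
  linarith

theorem lam_mem {p : ℕ} (hp : 2 ≤ p) :
    0 < 2 * (p : ℝ) * ((p : ℝ) + 1) - (5 / 4 - aC p / 2) * (p : ℝ) ^ 2 ∧
      2 * (p : ℝ) * ((p : ℝ) + 1) - (5 / 4 - aC p / 2) * (p : ℝ) ^ 2 ≤
        (p : ℝ) ^ 2 * (33 / 20 + 2 * (1 / (p : ℝ))) := by
  have hp2 : (2 : ℝ) ≤ p := by exact_mod_cast hp
  obtain ⟨ha0, ha1⟩ := aC_mem (show (0 : ℝ) ≤ p by linarith)
  have e : (p : ℝ) ^ 2 * (33 / 20 + 2 * (1 / (p : ℝ))) = 33 / 20 * (p : ℝ) ^ 2 + 2 * p := by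
    have : (p : ℝ) ≠ 0 := by linarith
    field_simp
  rw [e]
  constructor <;> nlinarith [mul_le_mul_of_nonneg_right ha1 (sq_nonneg (p : ℝ)),
    mul_nonneg ha0 (sq_nonneg (p : ℝ))]

theorem sq_quad_interval {A B C D lo hi X : ℝ} (h1 : lo ≤ X) (h2 : X ≤ hi)
    (hl : (A + B * lo) ^ 2 ≤ C + D * lo) (hh : (A + B * hi) ^ 2 ≤ C + D * hi) :
    (A + B * X) ^ 2 ≤ C + D * X := by
  rcases eq_or_lt_of_le (h1.trans h2) with e | e
  · rw [show X = lo by linarith]; exact hl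
  · refine le_of_mul_le_mul_left ?_ (sub_pos.2 e)
    linear_combination mul_le_mul_of_nonneg_left hl (sub_nonneg.2 h2) +
      mul_le_mul_of_nonneg_left hh (sub_nonneg.2 h1) +
      mul_nonneg (mul_nonneg (sub_nonneg.2 h1) (sub_nonneg.2 h2))
        (mul_nonneg (sub_pos.2 e).le (sq_nonneg B))

theorem aLo_nonneg {t : ℝ} (h0 : 0 ≤ t) (h1 : t ≤ 1 / 4) : 0 ≤ aLo t := by
  rw [aLo]; exact div_nonneg (by linarith) (by linarith)

theorem eT_nonneg {t : ℝ} (h1 : t ≤ 1 / 4) : 0 ≤ eT t := by rw [eT]; linarith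

/-- `kLo` is a lower bound on the factor of the deficit. -/
theorem kLo_le {p : ℕ} (hp : 2 ≤ p) {t0 t1 w W : ℝ} (ht0 : t0 ≤ 1 / ((p : ℝ) + 2))
    (ht1 : 1 / ((p : ℝ) + 2) ≤ t1) (h0 : 0 ≤ t0) (h1 : t1 ≤ 1 / 4) (hw : 1 ≤ w) (hwW : w ≤ W) :
    0 ≤ kLo t0 t1 W ∧ kLo t0 t1 W ≤ (aC p * w + 4) / (1 + w) + aC p / (p * w) := by
  have hp2 : (2 : ℝ) ≤ p := by exact_mod_cast hp
  have ha := aC_ge ht1
  obtain ⟨ha0, ha4⟩ := aC_mem (show (0 : ℝ) ≤ p by linarith)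
  obtain ⟨hip0, hip1⟩ := inv_p_mem hp ht0 ht1 h1
  have h01 : t0 ≤ t1 := ht0.trans ht1
  have hal := aLo_nonneg (h0.trans h01) h1
  have hipt0 : 0 ≤ ipT t0 := div_nonneg h0 (by linarith)
  have hW : 0 < W := by linarith
  refine ⟨by rw [kLo]; positivity, add_le_add ?_ ?_⟩
  · rw [div_le_div_iff₀ (by linarith) (by linarith)]
    linear_combination mul_le_mul_of_nonneg_left hwW (show 0 ≤ 4 - aLo t1 by linarith) +
      mul_le_mul_of_nonneg_right ha (mul_nonneg (show 0 ≤ w by linarith) (show 0 ≤ 1 + W by linarith))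
  · rw [show aC p / (p * w) = aC p * (1 / (p : ℝ)) / w by field_simp]
    exact div_le_div₀ (by positivity) (mul_le_mul ha hip0 hipt0 ha0) (by linarith) hwW

theorem semi_chord {y : ℝ} (hy : y ∈ Set.Ioo (0 : ℝ) 1) :
    (y ^ 2 ≤ 1 / 5 → 1 ≤ semi y * (1 + 3 / 5 * y ^ 2)) ∧
      (y ^ 2 ≤ 9 / 20 → 1 ≤ semi y * (1 + 97 / 125 * y ^ 2) ∧ semi y ≤ 1 - y ^ 2 / 2) := by
  have hsq := semi_sq (t := y) ⟨by linarith [hy.1], hy.2.le⟩
  have hs : 0 ≤ semi y := Real.sqrt_nonneg _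
  refine ⟨fun h => ?_, fun h => ⟨?_, ?_⟩⟩
  · refine (pow_le_pow_iff_left₀ zero_le_one (by positivity) two_ne_zero).1 ?_
    rw [one_pow, mul_pow, hsq]
    linear_combination mul_nonneg (sq_nonneg y)
      (show 0 ≤ 1 / 5 - 21 / 25 * y ^ 2 - 9 / 25 * (y ^ 2) ^ 2 by nlinarith)
  · refine (pow_le_pow_iff_left₀ zero_le_one (by positivity) two_ne_zero).1 ?_
    rw [one_pow, mul_pow, hsq]
    linear_combination mul_nonneg (sq_nonneg y)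
      (show 0 ≤ 69 / 125 - (194 / 125 - (97 / 125) ^ 2) * y ^ 2 - (97 / 125) ^ 2 * (y ^ 2) ^ 2 by
        nlinarith)
  · refine (pow_le_pow_iff_left₀ hs (by linarith) two_ne_zero).1 ?_
    rw [hsq]; nlinarith [sq_nonneg (y ^ 2)]

/-- The square of the cross term, over the common factor. -/
theorem near_square {z sw h X u β b K f e : ℝ} (hz0 : 0 ≤ z) (hz : z * (5 / 4) ≤ sw) (he0 : 0 ≤ e)
    (he : e ≤ h * X * (1 - u)) (hu0 : 0 ≤ u) (hu : u < 1) (hβ : 0 ≤ β * X) (hb : β * X ≤ b)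
    (hK : 0 ≤ K - f) {K' : ℝ} (hK' : K ≤ K') (hmain : (sw + h * X) ^ 2 ≤ (K - f) * (5 / 4 + β * X)) :
    (z * (5 / 4) * (1 - u) + e) ^ 2 ≤ (K' - f) * (1 - u) * (5 / 4 * (1 - u) + b) := by
  have hS : 0 ≤ 1 - u := by linarith
  calc (z * (5 / 4) * (1 - u) + e) ^ 2
      ≤ (sw * (1 - u) + h * X * (1 - u)) ^ 2 :=
        pow_le_pow_left₀ (by positivity) (add_le_add (mul_le_mul_of_nonneg_right hz hS) he) 2
    _ = (sw + h * X) ^ 2 * (1 - u) ^ 2 := by ring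
    _ ≤ (K - f) * (5 / 4 + β * X) * (1 - u) ^ 2 := mul_le_mul_of_nonneg_right hmain (sq_nonneg _)
    _ = (K - f) * (1 - u) * (5 / 4 * (1 - u) + β * X * (1 - u)) := by ring
    _ ≤ _ := by
        refine mul_le_mul (mul_le_mul_of_nonneg_right (by linarith) hS) ?_ (by positivity)
          (mul_nonneg (by linarith) hS)
        linarith [mul_le_of_le_one_right hβ (show 1 - u ≤ 1 by linarith)]

/-- The positive part of an affine bound, squared. -/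
theorem max_sq_le {A B : ℝ} (h : A ≤ -B) : max 0 A ^ 2 ≤ B ^ 2 := by
  rcases max_choice (0 : ℝ) A with e | e
  · rw [e]; simpa using sq_nonneg B
  · have h0 := le_max_left (0 : ℝ) A
    rw [e] at h0 ⊢
    rw [← neg_sq B]
    exact pow_le_pow_left₀ h0 h 2

/-- The slope of the residual at `r ≥ 1`, in `t`. -/
theorem slope_le {p : ℕ} (hp : 2 ≤ p) {t0 t1 : ℝ} (ht0 : t0 ≤ 1 / ((p : ℝ) + 2))
    (ht1 : 1 / ((p : ℝ) + 2) ≤ t1) (h1 : t1 ≤ 1 / 4) :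
    0 ≤ (pC p + eC p ^ 2 / sC p) * (1 / ((p : ℝ) + 2)) ∧
      (pC p + eC p ^ 2 / sC p) * (1 / ((p : ℝ) + 2)) ≤
        51 / 10 - 29 / 5 * t0 - (1 - 2 * t1) * aLo t1 + eT t0 ^ 2 / (29 / 10 - 31 / 5 * t1) := by
  have hp2 : (2 : ℝ) ≤ p := by exact_mod_cast hp
  obtain ⟨htpos, h4⟩ := t_mem hp
  obtain ⟨ha0, ha4⟩ := aC_mem (show (0 : ℝ) ≤ p by linarith)
  have hsC : 0 < sC p := by rw [sC]; linarith
  constructor
  · have : 0 ≤ pC p := by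
      rw [pC]; nlinarith only [hp2, mul_le_mul_of_nonneg_left ha4 (show (0 : ℝ) ≤ p by linarith)]
    positivity
  set t := 1 / ((p : ℝ) + 2) with ht
  have e1 : pC p * t = 51 / 10 - 29 / 5 * t - (1 - 2 * t) * aC p := by
    simp only [pC, ht]; field_simp; ring
  have e2 : eC p ^ 2 / sC p * t = (eC p * t) ^ 2 / (29 / 10 - 31 / 5 * t) := by
    have hsc : sC p * t = 29 / 10 - 31 / 5 * t := by simp only [sC, ht]; field_simp; ring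
    rw [← hsc]
    have := hsC.ne'
    have := htpos.ne'
    field_simp
  have h1' := mul_le_mul (show 1 - 2 * t1 ≤ 1 - 2 * t by linarith) (aC_ge ht1)
    (aLo_nonneg (htpos.le.trans ht1) h1) (by linarith)
  have h2 : (eC p * t) ^ 2 / (29 / 10 - 31 / 5 * t) ≤ eT t0 ^ 2 / (29 / 10 - 31 / 5 * t1) :=
    div_le_div₀ (sq_nonneg _) (pow_le_pow_left₀ (mul_nonneg (by unfold eC; positivity) htpos.le)
      (eC_t ht0) 2) (by linarith) (by linarith)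
  rw [add_mul, e1, e2]
  linarith only [h1', h2, ht0]

/-- The conditions of a box near the centre. -/
structure NearBox (κ lo hi t0 t1 ub f : ℝ) : Prop where
  hlo : 0 ≤ lo
  hhi : hi ≤ 4 / 5
  ht0 : 0 ≤ t0
  ht1 : t1 ≤ 1 / 4
  hub : hi ^ 2 * t1 ≤ ub
  hub' : ub ≤ 1 / 5
  hf : 0 ≤ f
  hl : (3 / 8 * ((83 / 50 + 4 / 25 * hi) * (1 + 3 / 5 * ub) + 16 / 9) * (5 / 4) +
      eT t0 * ipT t1 / (1 - ub) * lo ^ 2) ^ 2 ≤
    (kLo t0 t1 ((83 / 50 + 4 / 25 * hi) * (1 + 3 / 5 * ub)) - f) * (5 / 4 + betaLo t0 * lo ^ 2)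
  hh : (3 / 8 * ((83 / 50 + 4 / 25 * hi) * (1 + 3 / 5 * ub) + 16 / 9) * (5 / 4) +
      eT t0 * ipT t1 / (1 - ub) * hi ^ 2) ^ 2 ≤
    (kLo t0 t1 ((83 / 50 + 4 / 25 * hi) * (1 + 3 / 5 * ub)) - f) * (5 / 4 + betaLo t0 * hi ^ 2)
  herr : max 0 (8 / 5 - (33 / 10 - 33 / 25 * t1) * lo ^ 2) ^ 2 ≤ 4 * f * (κ +
    max 0 (8 / 5 - (51 / 10 - 29 / 5 * t0 - (1 - 2 * t1) * aLo t1 +
      eT t0 ^ 2 / (29 / 10 - 31 / 5 * t1)) * hi ^ 2) ^ 2 / (4 * (33 / 20 + 2 * ipT t1)))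

theorem NearBox.square {κ lo hi t0 t1 ub f : ℝ} (B : NearBox κ lo hi t0 t1 ub f)
    {p : ℕ} (hp : 2 ≤ p) {y r : ℝ} (hy : y ∈ Set.Ioo (0 : ℝ) 1) (hr : 0 < r) (hr1 : r ≤ 1)
    (hx0 : lo ≤ √((p : ℝ) + 2) * y) (hx1 : √((p : ℝ) + 2) * y ≤ hi)
    (ht0 : t0 ≤ 1 / ((p : ℝ) + 2)) (ht1 : 1 / ((p : ℝ) + 2) ≤ t1)
    (hw : (r ^ p)⁻¹ * semi y ≤ wide (√((p : ℝ) + 2) * y)) :
    0 < bC p ∧ (√((r ^ p)⁻¹) * (5 / 4) * (1 - y ^ 2) + eC p / p * y ^ 2) ^ 2 ≤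
      ((aC p * (r ^ p)⁻¹ + 4) / (1 + (r ^ p)⁻¹) + aC p / (p * (r ^ p)⁻¹) - f) * (1 - y ^ 2) *
        (5 / 4 * (1 - y ^ 2) + bC p * y ^ 2) := by
  obtain ⟨hlo, hhi, h00, h14, hubs, hub1, hf, hl, hh, -⟩ := B
  obtain ⟨htpos, -⟩ := t_mem hp
  set t := 1 / ((p : ℝ) + 2) with ht
  set x := √((p : ℝ) + 2) * y with hx
  set w := (r ^ p)⁻¹ with hwdef
  have hy0 := hy.1
  have hx00 : 0 ≤ x := by positivity
  have hu : y ^ 2 = x ^ 2 * t := by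
    rw [hx, mul_pow, Real.sq_sqrt (by positivity), ht]; field_simp
  have hxl : lo ^ 2 ≤ x ^ 2 := pow_le_pow_left₀ hlo hx0 2
  have hxh : x ^ 2 ≤ hi ^ 2 := pow_le_pow_left₀ hx00 hx1 2
  have hub : y ^ 2 ≤ ub := by
    rw [hu]; exact (mul_le_mul hxh ht1 htpos.le (sq_nonneg _)).trans hubs
  have hv0 := pow_pos hr p
  have hw1 : 1 ≤ w := (one_le_inv₀ hv0).2 (pow_le_one₀ hr.le hr1)
  set W := (83 / 50 + 4 / 25 * hi) * (1 + 3 / 5 * ub) with hW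
  have hwW : w ≤ W := by
    have hWc : w * semi y ≤ 83 / 50 + 4 / 25 * hi := hw.trans ((wide_le_affine hx00
      (hx1.trans hhi)).trans (by linarith only [hx1]))
    calc w ≤ w * semi y * (1 + 3 / 5 * y ^ 2) := by
          rw [mul_assoc]
          exact le_mul_of_one_le_right (by linarith only [hw1]) ((semi_chord hy).1 (hub.trans hub1))
      _ ≤ W := mul_le_mul hWc (by linarith only [hub]) (by positivity)
            (by linarith only [hx00, hx1])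
  obtain ⟨-, hK⟩ := kLo_le hp ht0 ht1 h00 h14 hw1 hwW
  have h01 : t0 ≤ t1 := ht0.trans ht1
  have hbeta : 0 < betaLo t0 := by
    have : 0 < 1 - t0 := by linarith only [h01, h14]
    rw [betaLo]; positivity
  have hbt := bC_t hp h00 ht0
  refine ⟨pos_of_mul_pos_left (hbeta.trans_le hbt) htpos.le, ?_⟩
  set sw := 3 / 8 * (W + 16 / 9) * (5 / 4) with hsw
  set h := eT t0 * ipT t1 / (1 - ub) with hhdef
  have hz : √w * (5 / 4) ≤ sw := by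
    rw [hsw]
    nlinarith only [sq_nonneg (√w - 4 / 3), Real.sq_sqrt (show 0 ≤ w by linarith only [hw1]), hwW]
  have h0e : 0 ≤ eT t0 := eT_nonneg (h01.trans h14)
  have he : eC p / p * y ^ 2 ≤ h * x ^ 2 * (1 - y ^ 2) := by
    obtain ⟨-, hip1⟩ := inv_p_mem hp ht0 ht1 h14
    have hh0 : 0 ≤ h := by
      rw [hhdef]; exact div_nonneg (mul_nonneg h0e ((by positivity : (0 : ℝ) ≤ 1 / (p : ℝ)).trans hip1))
        (by linarith only [hub1])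
    have e : eC p / p * y ^ 2 = eC p * t * (1 / (p : ℝ)) * x ^ 2 := by rw [hu]; ring
    have e2 : eT t0 * ipT t1 * x ^ 2 = h * x ^ 2 * (1 - ub) := by
      rw [hhdef]; field_simp [show (1 : ℝ) - ub ≠ 0 by linarith only [hub1]]
    rw [e]
    exact (mul_le_mul_of_nonneg_right (mul_le_mul (eC_t ht0) hip1 (by positivity) h0e)
      (sq_nonneg x)).trans (e2.le.trans (mul_le_mul_of_nonneg_left (by linarith only [hub])
        (by positivity)))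
  have hmain : (sw + h * x ^ 2) ^ 2 ≤ (kLo t0 t1 W - f) * (5 / 4 + betaLo t0 * x ^ 2) := by
    have := sq_quad_interval (A := sw) (B := h) (C := (kLo t0 t1 W - f) * (5 / 4))
      (D := (kLo t0 t1 W - f) * betaLo t0) hxl hxh (hl.trans_eq (by ring)) (hh.trans_eq (by ring))
    exact this.trans_eq (by ring)
  have hKf : 0 ≤ kLo t0 t1 W - f := nonneg_of_mul_nonneg_left
    ((sq_nonneg _).trans hmain) (by positivity)
  refine near_square (Real.sqrt_nonneg _) hz ?_ he (sq_nonneg y) (by linarith only [hub, hub1])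
    (by positivity) ?_ hKf hK hmain
  · have : 0 ≤ eC p := by unfold eC; positivity
    positivity
  · rw [hu, mul_comm (x ^ 2) t, ← mul_assoc]; exact mul_le_mul_of_nonneg_right hbt (sq_nonneg x)

theorem NearBox.err {κ lo hi t0 t1 ub f : ℝ} (B : NearBox κ lo hi t0 t1 ub f) (hκ : 0 ≤ κ)
    {p : ℕ} (hp : 2 ≤ p) {y : ℝ} (hy : y ∈ Set.Ioo (0 : ℝ) 1)
    (hx0 : lo ≤ √((p : ℝ) + 2) * y) (hx1 : √((p : ℝ) + 2) * y ≤ hi)
    (ht0 : t0 ≤ 1 / ((p : ℝ) + 2)) (ht1 : 1 / ((p : ℝ) + 2) ≤ t1) :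
    ∃ N, 0 ≤ N ∧ 8 / 5 - pC p * y ^ 2 ≤ N ∧ 0 ≤ errNum p κ (y ^ 2) / (1 - y ^ 2) ∧
      N ^ 2 ≤ 4 * (p : ℝ) ^ 2 * f * (1 - y ^ 2) * (errNum p κ (y ^ 2) / (1 - y ^ 2)) := by
  obtain ⟨hlo, -, -, h14, -, -, hf, -, -, herr⟩ := B
  have hp2 : (2 : ℝ) ≤ p := by exact_mod_cast hp
  obtain ⟨hlam, hlam'⟩ := lam_mem hp
  obtain ⟨htpos, -⟩ := t_mem hp
  obtain ⟨hq0, hQ⟩ := slope_le hp ht0 ht1 h14
  obtain ⟨-, hip1⟩ := inv_p_mem hp ht0 ht1 h14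
  set t := 1 / ((p : ℝ) + 2) with ht
  set x := √((p : ℝ) + 2) * y with hx
  have hy0 := hy.1
  have hu : y ^ 2 = x ^ 2 * t := by
    rw [hx, mul_pow, Real.sq_sqrt (by positivity), ht]; field_simp
  have hxl : lo ^ 2 ≤ x ^ 2 := pow_le_pow_left₀ hlo hx0 2
  have hxh : x ^ 2 ≤ hi ^ 2 := pow_le_pow_left₀ (by positivity) hx1 2
  have hS : 0 < 1 - y ^ 2 := by nlinarith only [hy.1, hy.2]
  set lam := 2 * (p : ℝ) * ((p : ℝ) + 1) - (5 / 4 - aC p / 2) * (p : ℝ) ^ 2 with hlamdef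
  set P := (pC p + eC p ^ 2 / sC p) * y ^ 2 - 8 / 5 with hP
  set Q := 51 / 10 - 29 / 5 * t0 - (1 - 2 * t1) * aLo t1 + eT t0 ^ 2 / (29 / 10 - 31 / 5 * t1)
  refine ⟨max 0 (8 / 5 - (33 / 10 - 33 / 25 * t1) * lo ^ 2), le_max_left _ _, ?_, ?_, ?_⟩
  · refine le_trans ?_ (le_max_right _ _)
    have hl := pC_t hp ht1
    have h1 := mul_le_mul hl hxl (sq_nonneg _)
      ((show (0 : ℝ) ≤ 33 / 10 - 33 / 25 * t1 by linarith only [h14]).trans hl)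
    rw [hu]; linarith only [h1]
  · unfold errNum
    rw [← hlamdef]
    positivity
  · refine herr.trans ?_
    have hP2 : max 0 (8 / 5 - Q * hi ^ 2) ^ 2 ≤ P ^ 2 := by
      refine max_sq_le ?_
      have := mul_le_mul hQ hxh (sq_nonneg x) (hq0.trans hQ)
      rw [hP, hu]; linarith only [this]
    have hipT : 0 ≤ ipT t1 := (by positivity : (0 : ℝ) ≤ 1 / (p : ℝ)).trans hip1
    have h1 : max 0 (8 / 5 - Q * hi ^ 2) ^ 2 / (4 * (33 / 20 + 2 * ipT t1)) ≤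
        (p : ℝ) ^ 2 * (P ^ 2 / (4 * lam)) := by
      rw [mul_div_assoc', div_le_div_iff₀ (by positivity) (by positivity)]
      calc max 0 (8 / 5 - Q * hi ^ 2) ^ 2 * (4 * lam)
          ≤ P ^ 2 * (4 * lam) := mul_le_mul_of_nonneg_right hP2 (by positivity)
        _ ≤ P ^ 2 * (4 * ((p : ℝ) ^ 2 * (33 / 20 + 2 * ipT t1))) := by
            refine mul_le_mul_of_nonneg_left (mul_le_mul_of_nonneg_left (hlam'.trans ?_) (by norm_num))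
              (sq_nonneg _)
            exact mul_le_mul_of_nonneg_left (by linarith only [hip1]) (sq_nonneg _)
        _ = _ := by ring
    have e : 4 * (p : ℝ) ^ 2 * f * (1 - y ^ 2) * (errNum p κ (y ^ 2) / (1 - y ^ 2)) =
        4 * f * (κ + (p : ℝ) ^ 2 * (P ^ 2 / (4 * lam))) := by
      have : (p : ℝ) ≠ 0 := by linarith only [hp2]
      simp only [errNum, ← hP, ← hlamdef]
      field_simp
      ring
    rw [e]
    exact mul_le_mul_of_nonneg_left (by linarith only [h1]) (by linarith only [hf])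

theorem NearBox.sound {κ lo hi t0 t1 ub f : ℝ} (B : NearBox κ lo hi t0 t1 ub f) (hκ : 0 ≤ κ)
    {p : ℕ} (hp : 2 ≤ p) {y r θ : ℝ} (hy : y ∈ Set.Ioo (0 : ℝ) 1) (hr : 0 < r) (hr1 : r ≤ 1)
    (hx0 : lo ≤ √((p : ℝ) + 2) * y) (hx1 : √((p : ℝ) + 2) * y ≤ hi)
    (ht0 : t0 ≤ 1 / ((p : ℝ) + 2)) (ht1 : 1 / ((p : ℝ) + 2) ≤ t1)
    (hw : (r ^ p)⁻¹ * semi y ≤ wide (√((p : ℝ) + 2) * y)) :
    inner p y r θ ≤ errNum p κ (y ^ 2) / (1 - y ^ 2) := by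
  obtain ⟨hbc, hF⟩ := B.square hp hy hr hr1 hx0 hx1 ht0 ht1 hw
  obtain ⟨N, hN0, hN, hE0, hE⟩ := B.err hκ hp hy hx0 hx1 ht0 ht1
  exact inner_le_near p (by omega) hy hr hr1 hbc B.hf hF hN0 hN hE0 hE

/-- The conditions of a box beyond the centre. -/
structure MidBox (lo hi t0 t1 Wc ub k : ℝ) : Prop where
  hlo : 0 < lo
  ht0 : 0 ≤ t0
  ht1 : t1 ≤ 1 / 4
  hwide : 20665 / 10000 * mills hi ≤ Wc * lift lo
  hub : hi ^ 2 * t1 ≤ ub ∨ 9 / 20 ≤ ub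
  hd : 0 < 33 / 10 - 33 / 25 * t1 - 8 / 5 / lo ^ 2
  hk : k ≤ betaLo t0 - eT t0 ^ 2 * (385 / 1000) * ipT t1 /
    (33 / 10 - 33 / 25 * t1 - 8 / 5 / lo ^ 2) * (Wc * (1 + 97 / 125 * ub))
  hl : 0 < 5 / 4 * (1 - lo ^ 2 * t0) + min (lo ^ 2 * k) (hi ^ 2 * k)
  hl' : (5 / 4) ^ 2 * Wc * (1 - lo ^ 2 * t0 / 2) ≤ kLo t0 t1 (Wc * (1 + 97 / 125 * ub)) *
    (5 / 4 * (1 - lo ^ 2 * t0) + min (lo ^ 2 * k) (hi ^ 2 * k))
  hh : 0 < 5 / 4 * (1 - ub) + min (lo ^ 2 * k) (hi ^ 2 * k)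
  hh' : (5 / 4) ^ 2 * Wc * (1 - ub / 2) ≤ kLo t0 t1 (Wc * (1 + 97 / 125 * ub)) *
    (5 / 4 * (1 - ub) + min (lo ^ 2 * k) (hi ^ 2 * k))

theorem affine_interval {A B lo hi u : ℝ} (h1 : lo ≤ u) (h2 : u ≤ hi)
    (hl : 0 ≤ A + B * lo) (hh : 0 ≤ A + B * hi) : 0 ≤ A + B * u := by
  rcases le_total 0 B with hB | hB
  · nlinarith
  · nlinarith

theorem affine_interval' {A B lo hi u : ℝ} (h1 : lo ≤ u) (h2 : u ≤ hi)
    (hl : 0 < A + B * lo) (hh : 0 < A + B * hi) : 0 < A + B * u := by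
  rcases le_total 0 B with hB | hB
  · nlinarith
  · nlinarith

theorem sub_one_le {w : ℝ} (hw : 1 ≤ w) : (w - 1) / √w ≤ 385 / 1000 * w := by
  have hz : 0 < √w := Real.sqrt_pos.2 (by linarith)
  rw [div_le_iff₀ hz]
  refine (pow_le_pow_iff_left₀ (by linarith) (by positivity) two_ne_zero).1 ?_
  rw [mul_pow, Real.sq_sqrt (show (0 : ℝ) ≤ w by linarith)]
  nlinarith [mul_nonneg (show (0 : ℝ) ≤ w - 1 by linarith) (sq_nonneg (w - 3)), sq_nonneg (w - 3)]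

theorem MidBox.w_le {lo hi t0 t1 Wc ub k : ℝ} (B : MidBox lo hi t0 t1 Wc ub k)
    {p : ℕ} {y r : ℝ} (hy : y ∈ Set.Ioo (0 : ℝ) 1) (hr : 0 < r)
    (hx0 : lo ≤ √((p : ℝ) + 2) * y) (hx1 : √((p : ℝ) + 2) * y ≤ hi)
    (hu1 : y ^ 2 ≤ 9 / 20) (hub : y ^ 2 ≤ ub)
    (hw : (r ^ p)⁻¹ * semi y ≤ wide (√((p : ℝ) + 2) * y)) :
    0 < Wc ∧ (r ^ p)⁻¹ * semi y ≤ Wc ∧ (r ^ p)⁻¹ ≤ Wc * (1 + 97 / 125 * ub) := by
  have hlo := B.hlo
  have hs := semi_pos (t := y) ⟨by linarith only [hy.1], hy.2⟩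
  have hv0 : 0 < (r ^ p)⁻¹ := inv_pos.2 (pow_pos hr p)
  have hWc : (r ^ p)⁻¹ * semi y ≤ Wc := by
    refine hw.trans ((wide_le hlo.le hx0 hx1).trans ?_)
    rw [div_le_iff₀ (lift_pos hlo.le)]
    exact B.hwide
  have hWc0 : 0 < Wc := lt_of_lt_of_le (mul_pos hv0 hs) hWc
  refine ⟨hWc0, hWc, ?_⟩
  calc (r ^ p)⁻¹ ≤ (r ^ p)⁻¹ * semi y * (1 + 97 / 125 * y ^ 2) := by
        rw [mul_assoc]; exact le_mul_of_one_le_right hv0.le ((semi_chord hy).2 hu1).1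
    _ ≤ _ := mul_le_mul hWc (by linarith only [hub]) (by positivity) hWc0.le

theorem MidBox.cross {lo hi t0 t1 Wc ub k : ℝ} (B : MidBox lo hi t0 t1 Wc ub k)
    {p : ℕ} (hp : 2 ≤ p) {y r : ℝ} (hy : y ∈ Set.Ioo (0 : ℝ) 1) (hr : 0 < r) (hr1 : r ≤ 1)
    (hx0 : lo ≤ √((p : ℝ) + 2) * y)
    (ht0 : t0 ≤ 1 / ((p : ℝ) + 2)) (ht1 : 1 / ((p : ℝ) + 2) ≤ t1) :
    0 < pC p * y ^ 2 - 8 / 5 ∧
      0 ≤ eT t0 ^ 2 * (385 / 1000) * ipT t1 / (33 / 10 - 33 / 25 * t1 - 8 / 5 / lo ^ 2) ∧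
      eC p ^ 2 * y ^ 2 * (1 - r) / (pC p * y ^ 2 - 8 / 5) * y ^ 2 ≤
        eT t0 ^ 2 * (385 / 1000) * ipT t1 / (33 / 10 - 33 / 25 * t1 - 8 / 5 / lo ^ 2) *
          (r ^ p)⁻¹ * (√((p : ℝ) + 2) * y) ^ 2 := by
  have hp2 : (2 : ℝ) ≤ p := by exact_mod_cast hp
  obtain ⟨htpos, -⟩ := t_mem hp
  obtain ⟨-, hip1⟩ := inv_p_mem hp ht0 ht1 B.ht1
  have hlo := B.hlo
  have hd := B.hd
  set t := 1 / ((p : ℝ) + 2) with ht
  set x := √((p : ℝ) + 2) * y with hx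
  set w := (r ^ p)⁻¹ with hwdef
  set dd := 33 / 10 - 33 / 25 * t1 - 8 / 5 / lo ^ 2 with hdd
  have hw1 : 1 ≤ w := (one_le_inv₀ (pow_pos hr p)).2 (pow_le_one₀ hr.le hr1)
  have hy0 := hy.1
  have hxpos : 0 < x := by linarith only [hlo, hx0]
  have hu : y ^ 2 = x ^ 2 * t := by
    rw [hx, mul_pow, Real.sq_sqrt (by positivity), ht]; field_simp
  have hRX : dd * x ^ 2 ≤ pC p * y ^ 2 - 8 / 5 := by
    have h1 := mul_le_mul_of_nonneg_right (pC_t hp ht1) (sq_nonneg x)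
    have h2 : 8 / 5 ≤ 8 / 5 / lo ^ 2 * x ^ 2 := by
      rw [div_mul_eq_mul_div, le_div_iff₀ (by positivity)]
      exact mul_le_mul_of_nonneg_left (pow_le_pow_left₀ hlo.le hx0 2) (by norm_num)
    rw [hu, hdd]; linarith only [h1, h2]
  have hR : 0 < pC p * y ^ 2 - 8 / 5 := lt_of_lt_of_le (mul_pos hd (by positivity)) hRX
  have hipt1 : 0 ≤ ipT t1 := (by positivity : (0 : ℝ) ≤ 1 / (p : ℝ)).trans hip1
  refine ⟨hR, by positivity, ?_⟩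
  have hdr : 1 - r ≤ 385 / 1000 * w * ipT t1 := by
    have hpd : (p : ℝ) * (1 - r) ≤ 385 / 1000 * w := by
      refine le_trans ?_ (sub_one_le hw1)
      rw [le_div_iff₀ (Real.sqrt_pos.2 (by linarith only [hw1]))]
      exact drop_le p hr hr1
    calc 1 - r = (p : ℝ) * (1 - r) * (1 / (p : ℝ)) := by field_simp
      _ ≤ 385 / 1000 * w * ipT t1 := mul_le_mul hpd hip1 (by positivity) (by positivity)
  have he : 0 ≤ eC p * t := mul_nonneg (by unfold eC; positivity) htpos.le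
  have hd0 : 0 ≤ 1 - r := by linarith only [hr1]
  have e : eC p ^ 2 * y ^ 2 * (1 - r) / (pC p * y ^ 2 - 8 / 5) * y ^ 2 =
      (eC p * t) ^ 2 * (1 - r) * (x ^ 2 * x ^ 2) / (pC p * y ^ 2 - 8 / 5) := by rw [hu]; ring
  rw [e]
  refine (div_le_div₀ (by positivity) (mul_le_mul_of_nonneg_right (mul_le_mul
    (pow_le_pow_left₀ he (eC_t ht0) 2) hdr hd0 (sq_nonneg _)) (by positivity))
    (mul_pos hd (by positivity)) hRX).trans (le_of_eq ?_)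
  field_simp

theorem MidBox.sound {lo hi t0 t1 Wc ub k : ℝ} (B : MidBox lo hi t0 t1 Wc ub k)
    {p : ℕ} (hp : 2 ≤ p) {y r θ : ℝ} (hy : y ∈ Set.Ioo (0 : ℝ) 1) (hr : 0 < r) (hr1 : r ≤ 1)
    (hx0 : lo ≤ √((p : ℝ) + 2) * y) (hx1 : √((p : ℝ) + 2) * y ≤ hi)
    (ht0 : t0 ≤ 1 / ((p : ℝ) + 2)) (ht1 : 1 / ((p : ℝ) + 2) ≤ t1) (hu1 : y ^ 2 ≤ 9 / 20)
    (hw : (r ^ p)⁻¹ * semi y ≤ wide (√((p : ℝ) + 2) * y)) :
    inner p y r θ ≤ 0 := by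
  obtain ⟨hR, hρ0, hζ⟩ := B.cross hp hy hr hr1 hx0 ht0 ht1
  obtain ⟨hlo, h00, h14, -, hubs, -, hk, hl, hl', hh, hh'⟩ := id B
  obtain ⟨htpos, -⟩ := t_mem hp
  set t := 1 / ((p : ℝ) + 2) with ht
  set x := √((p : ℝ) + 2) * y with hx
  set w := (r ^ p)⁻¹ with hwdef
  set ρ := eT t0 ^ 2 * (385 / 1000) * ipT t1 / (33 / 10 - 33 / 25 * t1 - 8 / 5 / lo ^ 2)
  have hy0 := hy.1
  have hxpos : 0 < x := by linarith only [hlo, hx0]
  have hu : y ^ 2 = x ^ 2 * t := by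
    rw [hx, mul_pow, Real.sq_sqrt (by positivity), ht]; field_simp
  have hxl : lo ^ 2 ≤ x ^ 2 := pow_le_pow_left₀ hlo.le hx0 2
  have hxh : x ^ 2 ≤ hi ^ 2 := pow_le_pow_left₀ hxpos.le hx1 2
  have hub : y ^ 2 ≤ ub := by
    rcases hubs with h | h
    · rw [hu]; exact (mul_le_mul hxh ht1 htpos.le (sq_nonneg _)).trans h
    · exact hu1.trans h
  have hul : lo ^ 2 * t0 ≤ y ^ 2 := by
    rw [hu]; exact mul_le_mul hxl ht0 h00 (sq_nonneg _)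
  obtain ⟨hWc0, hWc, hwW⟩ := B.w_le hy hr hx0 hx1 hu1 hub hw
  have hw1 : 1 ≤ w := (one_le_inv₀ (pow_pos hr p)).2 (pow_le_one₀ hr.le hr1)
  set W := Wc * (1 + 97 / 125 * ub) with hW
  obtain ⟨hK0, hK⟩ := kLo_le hp ht0 ht1 h00 h14 hw1 hwW
  set Z := min (lo ^ 2 * k) (hi ^ 2 * k) with hZ
  have hXk : Z ≤ bC p * y ^ 2 - ρ * w * x ^ 2 := by
    have hk' : k ≤ bC p * t - ρ * w := by
      linarith only [hk, bC_t hp h00 ht0, mul_le_mul_of_nonneg_left hwW hρ0]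
    have e : bC p * y ^ 2 - ρ * w * x ^ 2 = x ^ 2 * (bC p * t - ρ * w) := by rw [hu]; ring
    rw [e]
    refine le_trans ?_ (mul_le_mul_of_nonneg_left hk' (sq_nonneg x))
    rcases le_total 0 k with h | h
    · exact (min_le_left _ _).trans (mul_le_mul_of_nonneg_right hxl h)
    · exact (min_le_right _ _).trans (mul_le_mul_of_nonpos_right hxh h)
  have hT : 0 < 5 / 4 * (1 - y ^ 2) + Z := by
    have := affine_interval' (A := 5 / 4 + Z) (B := -(5 / 4)) hul hub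
      (by linarith only [hl]) (by linarith only [hh])
    linarith only [this]
  have hG : (5 / 4) ^ 2 * Wc * (1 - y ^ 2 / 2) ≤ kLo t0 t1 W * (5 / 4 * (1 - y ^ 2) + Z) := by
    have := affine_interval (A := kLo t0 t1 W * (5 / 4 + Z) - (5 / 4) ^ 2 * Wc)
      (B := (5 / 4) ^ 2 * Wc / 2 - kLo t0 t1 W * (5 / 4)) hul hub
      (by linarith only [hl']) (by linarith only [hh'])
    linarith only [this]
  refine inner_le_mid p (by omega) hy hr hr1 hR hζ (by linarith only [hT, hXk]) ?_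
  rw [← hwdef]
  have hs := semi_pos (t := y) ⟨by linarith only [hy0], hy.2⟩
  have hsq := semi_sq (t := y) ⟨by linarith only [hy0], hy.2.le⟩
  calc (5 / 4) ^ 2 * w * (1 - y ^ 2) = (5 / 4) ^ 2 * (w * semi y) * semi y := by rw [← hsq]; ring
    _ ≤ (5 / 4) ^ 2 * Wc * (1 - y ^ 2 / 2) :=
        mul_le_mul (mul_le_mul_of_nonneg_left hWc (by norm_num)) ((semi_chord hy).2 hu1).2 hs.le
          (by positivity)
    _ ≤ _ := hG
    _ ≤ _ := mul_le_mul hK (by linarith only [hXk]) hT.le (hK0.trans hK)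

end Vale.Agent.P237.All.Transport.Upper
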