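import Vale.Agent.P237.All.Upper.Boxes

/-!
P237, every dimension, upper regime: boxes combined along `x`, and the analytic tail `x ≥ 5`.
-/

noncomputable section

namespace Vale.Agent.P237.All.Transport.Upper

/-- The bound on the inner function on a range near the centre. -/
def Near (κ t0 t1 lo hi : ℝ) : Prop :=
  ∀ (p : ℕ) (y r θ : ℝ), 2 ≤ p → y ∈ Set.Ioo (0 : ℝ) 1 → 0 < r → r ≤ 1 →
    lo ≤ √((p : ℝ) + 2) * y → √((p : ℝ) + 2) * y ≤ hi →
    t0 ≤ 1 / ((p : ℝ) + 2) → 1 / ((p : ℝ) + 2) ≤ t1 →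
    (r ^ p)⁻¹ * semi y ≤ wide (√((p : ℝ) + 2) * y) →
    inner p y r θ ≤ errNum p κ (y ^ 2) / (1 - y ^ 2)

/-- The sign of the inner function beyond a point. -/
def Beyond (t0 t1 lo : ℝ) : Prop :=
  ∀ (p : ℕ) (y r θ : ℝ), 2 ≤ p → y ∈ Set.Ioo (0 : ℝ) 1 → 0 < r → r ≤ 1 →
    lo ≤ √((p : ℝ) + 2) * y → y ^ 2 ≤ 9 / 20 →
    t0 ≤ 1 / ((p : ℝ) + 2) → 1 / ((p : ℝ) + 2) ≤ t1 →
    (r ^ p)⁻¹ * semi y ≤ wide (√((p : ℝ) + 2) * y) →
    inner p y r θ ≤ 0

theorem NearBox.range {κ lo hi t0 t1 ub f : ℝ} (B : NearBox κ lo hi t0 t1 ub f) (hκ : 0 ≤ κ) :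
    Near κ t0 t1 lo hi :=
  fun _ _ _ _ hp hy hr hr1 h0 h1 h2 h3 hw => B.sound hκ hp hy hr hr1 h0 h1 h2 h3 hw

theorem Near.append {κ t0 t1 lo mi hi : ℝ} (h : Near κ t0 t1 lo mi) (h' : Near κ t0 t1 mi hi) :
    Near κ t0 t1 lo hi :=
  fun p y r θ hp hy hr hr1 h0 h1 h2 h3 hw => (le_total (√((p : ℝ) + 2) * y) mi).elim
    (fun hm => h p y r θ hp hy hr hr1 h0 hm h2 h3 hw)
    (fun hm => h' p y r θ hp hy hr hr1 hm h1 h2 h3 hw)

theorem MidBox.cons {lo hi t0 t1 Wc ub k : ℝ} (B : MidBox lo hi t0 t1 Wc ub k)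
    (h : Beyond t0 t1 hi) : Beyond t0 t1 lo :=
  fun p y r θ hp hy hr hr1 h0 hu h2 h3 hw => (le_total (√((p : ℝ) + 2) * y) hi).elim
    (fun hm => B.sound hp hy hr hr1 h0 hm h2 h3 hu hw)
    (fun hm => h p y r θ hp hy hr hr1 hm hu h2 h3 hw)

theorem Beyond.empty {t0 t1 lo : ℝ} (hlo : 0 ≤ lo) (ht : 0 ≤ t0) (h : 9 / 20 < lo ^ 2 * t0) :
    Beyond t0 t1 lo := by
  intro p y r θ hp hy hr hr1 h0 hu h2 h3 hw
  have h4 := mul_le_mul (pow_le_pow_left₀ hlo h0 2) h2 ht (sq_nonneg _)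
  rw [mul_pow, Real.sq_sqrt (by positivity), show ((p : ℝ) + 2) * y ^ 2 * (1 / ((p : ℝ) + 2)) = y ^ 2 by
    field_simp] at h4
  linarith

theorem wide_le_tail {x : ℝ} (hx : 5 ≤ x) : wide x ≤ 94 / 100 * x + 235 / 1000 := by
  have h1 : mills x ≤ x + 1 / 4 := by
    rw [mills, add_le_add_iff_left, div_le_iff₀ (by linarith)]; linarith
  have h2 : 22 / 10 ≤ lift x := by
    refine le_trans ?_ (lift_mono (by norm_num : (0 : ℝ) ≤ 5) hx)
    norm_num [lift, core, mills]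
  rw [wide, div_le_iff₀ (lift_pos (by linarith))]
  nlinarith

/-- The factor of the deficit and the bracket beyond `x = 5`. -/
theorem tail_ineq {x u : ℝ} (hx : 5 ≤ x) (hu0 : 0 ≤ u) (hu : u ≤ 9 / 20) :
    (5 / 4) ^ 2 * (94 / 100 * x + 235 / 1000) * (1 - u / 2) ≤
      176 / 100 * (5 / 4 * (1 - u) + 137 / 1000 * x ^ 2) := by
  refine le_of_sub_nonneg ?_
  have := affine_interval (A := 176 / 100 * (5 / 4 + 137 / 1000 * x ^ 2) -
      (5 / 4) ^ 2 * (94 / 100 * x + 235 / 1000))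
    (B := (5 / 4) ^ 2 * (94 / 100 * x + 235 / 1000) / 2 - 176 / 100 * (5 / 4)) hu0 hu
    (by nlinarith) (by nlinarith)
  linarith

theorem beyond_five {t1 : ℝ} : Beyond 0 t1 5 := by
  intro p y r θ hp hy hr hr1 hx0 hu _ _ hw
  have hp2 : (2 : ℝ) ≤ p := by exact_mod_cast hp
  obtain ⟨htpos, -⟩ := t_mem hp
  set t := 1 / ((p : ℝ) + 2) with ht
  set x := √((p : ℝ) + 2) * y with hx
  set w := (r ^ p)⁻¹ with hwdef
  have hy0 := hy.1
  have hxpos : 0 < x := by linarith only [hx0]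
  have huX : y ^ 2 = x ^ 2 * t := by
    rw [hx, mul_pow, Real.sq_sqrt (by positivity), ht]; field_simp
  have htx : t * x ≤ 9 / 100 := by
    refine le_of_mul_le_mul_right ?_ hxpos
    rw [mul_assoc, ← sq, mul_comm]
    linarith only [hu, huX, hx0]
  have ht18 : t ≤ 9 / 500 := by
    have := mul_le_mul_of_nonneg_left hx0 htpos.le
    linarith only [this, htx]
  have hw1 : 1 ≤ w := (one_le_inv₀ (pow_pos hr p)).2 (pow_le_one₀ hr.le hr1)
  have hs := semi_pos (t := y) ⟨by linarith only [hy0], hy.2⟩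
  have hWc : w * semi y ≤ 94 / 100 * x + 235 / 1000 := hw.trans (wide_le_tail hx0)
  set Wc := 94 / 100 * x + 235 / 1000 with hWcdef
  have hwW : w ≤ Wc * (27 / 20) := by
    calc w ≤ w * semi y * (1 + 97 / 125 * y ^ 2) := by
          rw [mul_assoc]; exact le_mul_of_one_le_right (by linarith only [hw1]) ((semi_chord hy).2 hu).1
      _ ≤ Wc * (27 / 20) := mul_le_mul hWc (by linarith only [hu]) (by positivity) (by positivity)
  obtain ⟨hip0, hip1⟩ := inv_p_mem hp (le_refl t) (le_refl t) (by linarith only [ht18])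
  set dd := 33 / 10 - 33 / 25 * t - 8 / 5 / 25 with hdd
  have hddlo : 32 / 10 ≤ dd := by rw [hdd]; linarith only [ht18]
  have hRX : dd * x ^ 2 ≤ pC p * y ^ 2 - 8 / 5 := by
    have h1 := mul_le_mul_of_nonneg_right (pC_t hp (le_refl t)) (sq_nonneg x)
    have h2 : 25 ≤ x ^ 2 := by nlinarith only [hx0]
    rw [huX, hdd]; linarith only [h1, h2]
  have hR : 0 < pC p * y ^ 2 - 8 / 5 := lt_of_lt_of_le (mul_pos (by linarith) (by positivity)) hRX
  have hdr : 1 - r ≤ 385 / 1000 * (Wc * (27 / 20)) * (26 / 25 * t) := by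
    have hpd : (p : ℝ) * (1 - r) ≤ 385 / 1000 * (Wc * (27 / 20)) := by
      refine le_trans (le_trans ?_ (sub_one_le hw1)) (by linarith only [hwW])
      rw [le_div_iff₀ (Real.sqrt_pos.2 (by linarith only [hw1]))]
      exact drop_le p hr hr1
    have h5 : 1 / (p : ℝ) ≤ 26 / 25 * t := by
      refine hip1.trans ?_
      rw [ipT, div_le_iff₀ (by linarith only [ht18])]
      nlinarith only [ht18, htpos]
    calc 1 - r = (p : ℝ) * (1 - r) * (1 / (p : ℝ)) := by field_simp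
      _ ≤ _ := mul_le_mul hpd h5 (by positivity) (by positivity)
  have hetp : 0 ≤ eC p * t := mul_nonneg (by unfold eC; positivity) htpos.le
  have het : eC p * t ≤ 9 / 10 := by
    have := eC_t (p := p) (t0 := 0) (by rw [← ht]; linarith only [htpos])
    rw [eT] at this; linarith only [this]
  have hζ : eC p ^ 2 * y ^ 2 * (1 - r) / (pC p * y ^ 2 - 8 / 5) * y ^ 2 ≤ 13 / 1000 * x ^ 2 := by
    have e : eC p ^ 2 * y ^ 2 * (1 - r) / (pC p * y ^ 2 - 8 / 5) * y ^ 2 =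
        (eC p * t) ^ 2 * (1 - r) * (x ^ 2 * x ^ 2) / (pC p * y ^ 2 - 8 / 5) := by rw [huX]; ring
    rw [e, div_le_iff₀ hR]
    have hd0 : 0 ≤ 1 - r := by linarith only [hr1]
    have h1 : (eC p * t) ^ 2 * (1 - r) ≤ 81 / 100 * (385 / 1000 * (Wc * (27 / 20)) * (26 / 25 * t)) :=
      mul_le_mul ((pow_le_pow_left₀ hetp het 2).trans (by norm_num)) hdr hd0 (by norm_num)
    have h2 : 81 / 100 * (385 / 1000 * (Wc * (27 / 20)) * (26 / 25 * t)) ≤ 13 / 1000 * (32 / 10) := by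
      rw [hWcdef]; linarith only [htx, ht18]
    calc (eC p * t) ^ 2 * (1 - r) * (x ^ 2 * x ^ 2)
        ≤ 13 / 1000 * (32 / 10) * (x ^ 2 * x ^ 2) :=
          mul_le_mul_of_nonneg_right (h1.trans h2) (by positivity)
      _ = 13 / 1000 * x ^ 2 * (32 / 10 * x ^ 2) := by ring
      _ ≤ _ := mul_le_mul_of_nonneg_left
          ((mul_le_mul_of_nonneg_right hddlo (sq_nonneg x)).trans hRX) (by positivity)
  have hb : 15 / 100 * x ^ 2 ≤ bC p * y ^ 2 := by
    have h := bC_t (p := p) hp le_rfl htpos.le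
    rw [huX, mul_comm (x ^ 2) t, ← mul_assoc]
    refine mul_le_mul_of_nonneg_right (le_trans ?_ h) (sq_nonneg x)
    norm_num [betaLo]
  have hS : 0 < 1 - y ^ 2 := by linarith only [hu]
  refine inner_le_mid p (by omega) hy hr hr1 hR hζ ?_ ?_
  · nlinarith only [hb, hS, hxpos]
  rw [← hwdef]
  have hsq := semi_sq (t := y) ⟨by linarith only [hy0], hy.2.le⟩
  obtain ⟨ha0, ha4⟩ := aC_mem (show (0 : ℝ) ≤ p by linarith only [hp2])
  have ha : 176 / 100 ≤ aC p := by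
    have := aC_ge (p := p) (le_refl t)
    refine le_trans ?_ this
    rw [aLo, le_div_iff₀ (by linarith only [htpos])]
    linarith only [ht18]
  have hK : 176 / 100 ≤ (aC p * w + 4) / (1 + w) + aC p / (p * w) := by
    have h1 : aC p ≤ (aC p * w + 4) / (1 + w) := by
      rw [le_div_iff₀ (by linarith only [hw1])]; linarith only [ha4]
    have h2 : 0 ≤ aC p / (p * w) := by positivity
    linarith only [ha, h1, h2]
  calc (5 / 4) ^ 2 * w * (1 - y ^ 2) = (5 / 4) ^ 2 * (w * semi y) * semi y := by rw [← hsq]; ring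
    _ ≤ (5 / 4) ^ 2 * Wc * (1 - y ^ 2 / 2) :=
        mul_le_mul (mul_le_mul_of_nonneg_left hWc (by norm_num)) ((semi_chord hy).2 hu).2 hs.le
          (by positivity)
    _ ≤ 176 / 100 * (5 / 4 * (1 - y ^ 2) + 137 / 1000 * x ^ 2) := tail_ineq hx0 (sq_nonneg y) hu
    _ ≤ _ := mul_le_mul hK (by linarith only [hb]) (by positivity)
        ((by norm_num : (0 : ℝ) ≤ 176 / 100).trans hK)

end Vale.Agent.P237.All.Transport.Upper
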