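import Vale.Agent.P237.All.CertPotential

/-!
P237, every dimension, upper regime: the inner function of the pointwise inequality at the weights
`(0, 1/10, 1)`, the test `2 y - t` and the potential `(potA, 5/4)`, and its bounds by completing
squares (`notes/P237h7/k0-analytic-02Dec.md`).
-/

noncomputable section

namespace Vale.Agent.P237.All.Transport.Upper

/-- The cross coefficient. -/
def eC (p : ℝ) : ℝ := 9 / 10 * p + 8 / 5

/-- The weight of the deficit `w - 1 + p δ`. -/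
def aC (p : ℝ) : ℝ := 2 * eC p / (p + 3)

/-- The slope of the residual in `y ^ 2`. -/
def pC (p : ℝ) : ℝ := 51 / 10 * p + 22 / 5 - p * aC p

/-- The slope of the coefficient of `θ ^ 2` beyond `r = 1`. -/
def sC (p : ℝ) : ℝ := 29 / 10 * p - 2 / 5

/-- The coefficient of `θ ^ 2`, away from its singular part, for `r ≤ 1`. -/
def bC (p : ℝ) : ℝ :=
  5 / 4 * (p + 3) -
    11 / 10 * (p + 4) * (p - 1 + 11 / 10 * (p + 4) / (4 * (p + 1))) / (p + 1)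

/-- The inner function at `u = y ^ 2`. -/
def inner (p : ℕ) (y r θ : ℝ) : ℝ :=
  (pC p * y ^ 2 - 8 / 5) * (r - 1) -
    (1 - y ^ 2) * (4 * (r ^ (p + 1) - 1 - ((p : ℝ) + 1) * (r - 1)) +
      aC p * ((r ^ p)⁻¹ - 1 + p * (r - 1))) +
    (-2 * eC p * y * (r - 1) + 2 * (5 / 4) * (1 - y ^ 2) * ((r ^ p)⁻¹ - 1) / y) * θ +
    (11 / 10 * ((p : ℝ) + 4) * r - 4 * r ^ (p + 1) - 5 / 4 * ((p : ℝ) + 3) -
      5 / 4 * (1 - y ^ 2) / y ^ 2) * θ ^ 2

theorem potA_eq (p : ℕ) : potA p (1 / 10) = -aC p := by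
  simp only [potA, aC, eC]; field_simp; ring

/-- The density of the certificate through the inner function. -/
theorem density_inner (p : ℕ) (c2 lam : ℝ) {y t r : ℝ} (hy : y ∈ Set.Ioo (0 : ℝ) 1) (hr : 0 < r) :
    density p 0 (1 / 10) 1 1 (ellOf p (1 / 10) (8 / 5) c2) lam c2 y t r +
        potY p (potA p (1 / 10)) (5 / 4) y t + potT p (potA p (1 / 10)) (5 / 4) y t / r ^ p =
      semi y ^ (p + 1) * (zeroOrder p (1 / 10) y - 1 / 10 * (c2 - 1) + inner p y r (t - y)) := by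
  rw [density_pot p (1 / 10) (5 / 4) (8 / 5) c2 lam hy hr, potA_eq]
  simp only [inner, resid, potA_eq, eC, pC]
  ring

theorem aC_mem {p : ℝ} (hp : 0 ≤ p) : 0 ≤ aC p ∧ aC p ≤ 9 / 5 := by
  have h : 0 < p + 3 := by linarith
  refine ⟨by unfold aC eC; positivity, ?_⟩
  rw [aC, eC, div_le_iff₀ h]; linarith

theorem one_sub_pow_eq (p : ℕ) (r : ℝ) : 1 - r ^ p = (1 - r) * ∑ i ∈ Finset.range p, r ^ i := by
  rw [mul_comm, geom_sum_mul_neg]

/-- `2 (v - 1) / (v + 1) ≤ p δ` for `v = r ^ p`, `r ≥ 1`. -/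
theorem trap_le (p : ℕ) {r : ℝ} (hr : 1 ≤ r) :
    2 * (r ^ p - 1) ≤ p * (r - 1) * (r ^ p + 1) := by
  have h : 2 * ∑ i ∈ Finset.range p, r ^ i ≤ p * (r ^ p + 1) := by
    rw [two_mul]
    nth_rewrite 2 [← Finset.sum_range_reflect]
    rw [← Finset.sum_add_distrib, show (p : ℝ) * (r ^ p + 1) = ∑ _i ∈ Finset.range p, (r ^ p + 1) by
      simp; ring]
    refine Finset.sum_le_sum fun i hi => ?_
    have hi' := Finset.mem_range.1 hi
    have h1 : 1 ≤ r ^ i := one_le_pow₀ hr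
    have h2 : 1 ≤ r ^ (p - 1 - i) := one_le_pow₀ hr
    have h3 : r ^ i * r ^ (p - 1 - i) ≤ r ^ p := by
      rw [← pow_add]; exact pow_le_pow_right₀ hr (by omega)
    nlinarith
  have e := one_sub_pow_eq p r
  nlinarith [mul_le_mul_of_nonneg_left h (sub_nonneg.2 hr)]

/-- `p (1 - r) √(r ^ p) ≤ 1 - r ^ p`. -/
theorem geom_ge (p : ℕ) {r : ℝ} (hr : 0 ≤ r) (hr1 : r ≤ 1) :
    (p : ℝ) * (1 - r) * √(r ^ p) ≤ 1 - r ^ p := by
  rw [one_sub_pow_eq, mul_comm (p : ℝ), mul_assoc]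
  refine mul_le_mul_of_nonneg_left ?_ (sub_nonneg.2 hr1)
  have h : 2 * ((p : ℝ) * √(r ^ p)) ≤ ∑ i ∈ Finset.range p, (r ^ i + r ^ (p - 1 - i)) := by
    rw [show 2 * ((p : ℝ) * √(r ^ p)) = ∑ _i ∈ Finset.range p, 2 * √(r ^ p) by simp; ring]
    refine Finset.sum_le_sum fun i hi => ?_
    have hi' := Finset.mem_range.1 hi
    have h3 : r ^ p ≤ r ^ i * r ^ (p - 1 - i) := by
      rw [← pow_add]; exact pow_le_pow_of_le_one hr hr1 (by omega)
    have h1 := pow_nonneg hr i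
    have h2 := pow_nonneg hr (p - 1 - i)
    have h4 := Real.sq_sqrt (pow_nonneg hr p)
    nlinarith [sq_nonneg (r ^ i - r ^ (p - 1 - i)), Real.sqrt_nonneg (r ^ p)]
  rw [Finset.sum_add_distrib, Finset.sum_range_reflect (fun i => r ^ i) p, ← two_mul] at h
  linarith

/-- Case `r ≥ 1`. -/
theorem inner_le_pos (p : ℕ) (hp : 2 ≤ p) {y r θ : ℝ} (hy : y ∈ Set.Ioo (0 : ℝ) 1) (hr : 1 ≤ r) :
    inner p y r θ ≤ ((pC p + eC p ^ 2 / sC p) * y ^ 2 - 8 / 5) ^ 2 /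
      (4 * (2 * p * ((p : ℝ) + 1) - (5 / 4 - aC p / 2) * (p : ℝ) ^ 2) * (1 - y ^ 2)) := by
  have hp2 : (2 : ℝ) ≤ p := by exact_mod_cast hp
  obtain ⟨ha0, ha1⟩ := aC_mem (show (0 : ℝ) ≤ p by linarith)
  have hy0 := hy.1
  have hu : 0 < y ^ 2 := by positivity
  have hS : 0 < 1 - y ^ 2 := by nlinarith [hy.2]
  have hσ : 0 < sC p := by unfold sC; linarith
  set δ := r - 1 with hδ
  have hδ0 : 0 ≤ δ := by linarith
  have hr' : r = 1 + δ := by linarith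
  have hv : 1 ≤ r ^ p := one_le_pow₀ hr
  have hv0 : 0 < r ^ p := by linarith
  set s := 1 - (r ^ p)⁻¹ with hs
  have hs0 : 0 ≤ s := by
    rw [hs, sub_nonneg]; exact inv_le_one_of_one_le₀ hv
  have hs1 : s ≤ p * δ := one_sub_inv_pow_le p (by linarith)
  have hW : s ^ 2 / 2 ≤ (r ^ p)⁻¹ - 1 + p * δ := by
    have h := trap_le p hr
    rw [← hδ] at h
    have e : r ^ p * s = r ^ p - 1 := by rw [hs, mul_sub, mul_inv_cancel₀ hv0.ne']; ring
    have hs2 : s < 1 := by rw [hs]; linarith [inv_pos.2 hv0]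
    have h2 : 2 * s ≤ p * δ * (2 - s) := by
      refine le_of_mul_le_mul_left ?_ hv0
      calc r ^ p * (2 * s) = 2 * (r ^ p * s) := by ring
        _ ≤ p * δ * (r ^ p + 1) := by rw [e]; exact h
        _ = r ^ p * (p * δ * (2 - s)) := by linear_combination ((p : ℝ) * δ) * e
    rw [show (r ^ p)⁻¹ - 1 = -s by rw [hs]; ring]
    refine le_of_mul_le_mul_left ?_ (show (0 : ℝ) < 2 - s by linarith)
    nlinarith only [h2, mul_nonneg (mul_nonneg hs0 hs0) hs0]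
  have hP : ((p : ℝ) + 1) * p / 2 * δ ^ 2 ≤ r ^ (p + 1) - 1 - ((p : ℝ) + 1) * δ := by
    have h := pow_ge_quadratic (p + 1) hδ0
    push_cast at h
    rw [hr']; linarith only [h]
  have hB : 1 + ((p : ℝ) + 1) * δ ≤ r ^ (p + 1) := by
    linarith only [hP, mul_nonneg (show (0 : ℝ) ≤ ((p : ℝ) + 1) * p / 2 by positivity) (sq_nonneg δ)]
  have hC : 11 / 10 * ((p : ℝ) + 4) * r - 4 * r ^ (p + 1) - 5 / 4 * ((p : ℝ) + 3) ≤ -(sC p * δ) := by
    rw [sC]; rw [hr'] at hB ⊢; linarith only [hB, hp2, hδ0]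
  have h1 : -2 * eC p * y * δ * θ - sC p * δ * θ ^ 2 ≤ eC p ^ 2 / sC p * y ^ 2 * δ := by
    rw [div_mul_eq_mul_div, div_mul_eq_mul_div, le_div_iff₀ hσ]
    linear_combination mul_nonneg hδ0 (sq_nonneg (sC p * θ + eC p * y))
  have h2 : 2 * (5 / 4) * (1 - y ^ 2) * ((r ^ p)⁻¹ - 1) / y * θ -
      5 / 4 * (1 - y ^ 2) / y ^ 2 * θ ^ 2 ≤ 5 / 4 * (1 - y ^ 2) * s ^ 2 := by
    have e : 5 / 4 * (1 - y ^ 2) * (s + θ / y) ^ 2 = 5 / 4 * (1 - y ^ 2) * s ^ 2 -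
        (2 * (5 / 4) * (1 - y ^ 2) * ((r ^ p)⁻¹ - 1) / y * θ -
          5 / 4 * (1 - y ^ 2) / y ^ 2 * θ ^ 2) := by
      rw [hs]; field_simp; ring
    linarith only [e, mul_nonneg hS.le (sq_nonneg (s + θ / y))]
  set lam := 2 * (p : ℝ) * ((p : ℝ) + 1) - (5 / 4 - aC p / 2) * (p : ℝ) ^ 2 with hlam
  have hl : 0 < lam := by
    rw [hlam]; nlinarith only [hp2, mul_nonneg ha0 (sq_nonneg (p : ℝ))]
  set R := (pC p + eC p ^ 2 / sC p) * y ^ 2 - 8 / 5 with hR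
  have h3 : inner p y r θ ≤ R * δ - (1 - y ^ 2) * (lam * δ ^ 2) := by
    have hq : s ^ 2 ≤ (p : ℝ) ^ 2 * δ ^ 2 := by rw [← mul_pow]; exact pow_le_pow_left₀ hs0 hs1 2
    have hlo : (5 / 4 - aC p / 2) * s ^ 2 ≤ (5 / 4 - aC p / 2) * ((p : ℝ) ^ 2 * δ ^ 2) :=
      mul_le_mul_of_nonneg_left hq (by linarith)
    have hdef : lam * δ ^ 2 + 5 / 4 * s ^ 2 ≤ 4 * (r ^ (p + 1) - 1 - ((p : ℝ) + 1) * δ) +
        aC p * ((r ^ p)⁻¹ - 1 + p * δ) := by
      rw [hlam]; linarith only [hlo, hP, mul_le_mul_of_nonneg_left hW ha0]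
    have hCθ := mul_le_mul_of_nonneg_right hC (sq_nonneg θ)
    have hD := mul_le_mul_of_nonneg_left hdef hS.le
    rw [inner, ← hδ, hR]
    linarith only [h1, h2, hCθ, hD]
  refine h3.trans ?_
  rw [le_div_iff₀ (by positivity)]
  linear_combination sq_nonneg (R - 2 * lam * (1 - y ^ 2) * δ)

/-- The coefficient of `θ ^ 2` for `r ≤ 1`. -/
theorem coef_le (p : ℕ) (hp : 1 ≤ p) {r : ℝ} (hr : 0 ≤ r) :
    11 / 10 * ((p : ℝ) + 4) * r - 4 * r ^ (p + 1) ≤ 5 / 4 * ((p : ℝ) + 3) - bC p := by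
  have hp1 : (1 : ℝ) ≤ p := by exact_mod_cast hp
  set M := 11 / 10 * ((p : ℝ) + 4) with hM
  set z := M / (4 * ((p : ℝ) + 1)) with hz
  have hz0 : 0 < z := by positivity
  set ρ := z ^ ((p : ℝ)⁻¹) with hρ
  have hρ0 : 0 < ρ := Real.rpow_pos_of_pos hz0 _
  have hρp : ρ ^ p = z := Real.rpow_inv_natCast_pow hz0.le (by omega)
  have hρle : ρ ≤ (p - 1 + z) / p := by
    have h := one_add_mul_le_pow (a := ρ - 1) (by linarith) p
    rw [add_sub_cancel, hρp] at h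
    rw [le_div_iff₀ (by linarith)]
    linarith
  have htan : ρ ^ (p + 1) + ((p : ℝ) + 1) * ρ ^ p * (r - ρ) ≤ r ^ (p + 1) := by
    have h := one_add_mul_le_pow (a := r / ρ - 1) (by linarith [div_nonneg hr hρ0.le]) (p + 1)
    rw [add_sub_cancel, div_pow, le_div_iff₀ (by positivity)] at h
    refine le_trans (le_of_eq ?_) h
    push_cast
    rw [pow_succ]
    field_simp
  have hb : 5 / 4 * ((p : ℝ) + 3) - bC p = M * ((p - 1 + z) / (p + 1)) := by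
    simp only [bC, hz, hM]; ring
  rw [pow_succ, hρp] at htan
  have hMz : 4 * ((p : ℝ) + 1) * z = M := by rw [hz]; field_simp
  have h5 : 4 * (p : ℝ) * (z * ρ) ≤ 4 * z * (p - 1 + z) := by
    rw [le_div_iff₀ (by linarith)] at hρle
    nlinarith
  have hr2 : M * r = 4 * ((p : ℝ) + 1) * z * r := by rw [hMz]
  rw [hb, show M * ((p - 1 + z) / (p + 1)) = 4 * z * (p - 1 + z) by rw [← hMz]; field_simp]
  nlinarith

/-- What the deficit gives at `w = r⁻ᵖ`, `s = w - 1`. -/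
theorem deficit_ge (p : ℕ) (hp : 1 ≤ p) {r : ℝ} (hr : 0 < r) (hr1 : r ≤ 1) :
    ((r ^ p)⁻¹ - 1) ^ 2 / (r ^ p)⁻¹ *
        ((aC p * (r ^ p)⁻¹ + 4) / (1 + (r ^ p)⁻¹) + aC p / (p * (r ^ p)⁻¹)) ≤
      4 * (r ^ (p + 1) - 1 - ((p : ℝ) + 1) * (r - 1)) +
        aC p * ((r ^ p)⁻¹ - 1 + p * (r - 1)) := by
  have hp1 : (1 : ℝ) ≤ p := by exact_mod_cast hp
  obtain ⟨ha0, ha1⟩ := aC_mem (show (0 : ℝ) ≤ p by linarith)
  have hid := pow_mul_id p hr
  have hex := pow_excess_ge p hp hr.le hr1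
  have hb : 1 - r ^ p ≤ p * (1 - r) := by
    have h := one_add_mul_le_pow (a := r - 1) (by linarith) p
    rw [add_sub_cancel] at h
    linarith
  set v := r ^ p with hv
  have hv0 : 0 < v := pow_pos hr p
  have hv1 : v ≤ 1 := pow_le_one₀ hr.le hr1
  have hd : (1 - v) ^ 2 / p ≤ (r - 1) * (v - 1) := by
    rw [div_le_iff₀ (by linarith)]
    nlinarith [mul_le_mul_of_nonneg_right hb (sub_nonneg.2 hv1)]
  have e : (v⁻¹ - 1) ^ 2 / v⁻¹ * ((aC p * v⁻¹ + 4) / (1 + v⁻¹) + aC p / (p * v⁻¹)) =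
      (4 - aC p) * ((1 - v) ^ 2 / (1 + v)) +
        aC p * ((v⁻¹ - 1) ^ 2 / v⁻¹ + (1 - v) ^ 2 / p) := by
    have : (p : ℝ) ≠ 0 := by linarith
    have : 1 + v⁻¹ ≠ 0 := by positivity
    have : v + 1 ≠ 0 := by positivity
    field_simp
    ring
  rw [e]
  have := mul_le_mul_of_nonneg_left hex (show 0 ≤ 4 - aC p by linarith)
  have := mul_le_mul_of_nonneg_left hd ha0
  nlinarith

/-- `p d √w ≤ s` for `d = 1 - r`. -/
theorem drop_le (p : ℕ) {r : ℝ} (hr : 0 < r) (hr1 : r ≤ 1) :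
    (p : ℝ) * (1 - r) * √((r ^ p)⁻¹) ≤ (r ^ p)⁻¹ - 1 := by
  have hv := pow_pos hr p
  rw [Real.sqrt_inv, ← div_eq_mul_inv, div_le_iff₀ (Real.sqrt_pos.2 hv)]
  have h := mul_le_mul_of_nonneg_right (geom_ge p hr.le hr1) (inv_nonneg.2 (Real.sqrt_nonneg (r ^ p)))
  have e : ((r ^ p)⁻¹ - 1) * √(r ^ p) = (1 - r ^ p) * (√(r ^ p))⁻¹ := by
    have := (Real.sqrt_pos.2 hv).ne'
    field_simp
    rw [Real.sq_sqrt hv.le]
    ring
  rw [e]
  refine le_trans (le_of_eq ?_) h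
  rw [mul_inv_cancel_right₀ (Real.sqrt_pos.2 hv).ne']

/-- The maximum of `N q / p - F q ^ 2`. -/
theorem linear_quad_le {p F N q Err : ℝ} (hp : 0 < p) (hF : 0 ≤ F) (hE : 0 ≤ Err)
    (h : N ^ 2 ≤ 4 * p ^ 2 * F * Err) : N * (q / p) - F * q ^ 2 ≤ Err := by
  rcases eq_or_lt_of_le hF with h0 | h0
  · subst h0
    have : N = 0 := by
      have h2 : N ^ 2 = 0 := le_antisymm (by linarith only [h]) (sq_nonneg N)
      exact (pow_eq_zero_iff two_ne_zero).1 h2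
    subst this
    linarith only [hE]
  · have e : Err - (N * (q / p) - F * q ^ 2) =
        (4 * p ^ 2 * F * Err - N ^ 2 + (2 * p * F * q - N) ^ 2) / (4 * p ^ 2 * F) := by
      field_simp; ring
    have := div_nonneg (add_nonneg (sub_nonneg.2 h) (sq_nonneg (2 * p * F * q - N)))
      (show (0 : ℝ) ≤ 4 * p ^ 2 * F by positivity)
    linarith only [e, this]

/-- Case `r ≤ 1` near the centre: the square at the full coefficient. -/
theorem inner_le_near (p : ℕ) (hp : 1 ≤ p) {y r θ f N : ℝ} (hy : y ∈ Set.Ioo (0 : ℝ) 1) (hr : 0 < r)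
    (hr1 : r ≤ 1) (hb : 0 < bC p) (hf : 0 ≤ f)
    (hF : (√((r ^ p)⁻¹) * (5 / 4) * (1 - y ^ 2) + eC p / p * y ^ 2) ^ 2 ≤
      ((aC p * (r ^ p)⁻¹ + 4) / (1 + (r ^ p)⁻¹) + aC p / (p * (r ^ p)⁻¹) - f) * (1 - y ^ 2) *
        (5 / 4 * (1 - y ^ 2) + bC p * y ^ 2))
    (hN0 : 0 ≤ N) (hN : 8 / 5 - pC p * y ^ 2 ≤ N) {Err : ℝ} (hErr0 : 0 ≤ Err)
    (hErr : N ^ 2 ≤ 4 * (p : ℝ) ^ 2 * f * (1 - y ^ 2) * Err) :
    inner p y r θ ≤ Err := by
  have hy0 := hy.1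
  have hp1 : (1 : ℝ) ≤ p := by exact_mod_cast hp
  have hu : 0 < y ^ 2 := by positivity
  have hS : 0 < 1 - y ^ 2 := by nlinarith [hy.2]
  have he0 : 0 ≤ eC p := by unfold eC; positivity
  have hv0 := pow_pos hr p
  have hdef := mul_le_mul_of_nonneg_left (deficit_ge p hp hr hr1) hS.le
  have hco := coef_le p hp hr.le
  have hdr := drop_le p hr hr1
  set w := (r ^ p)⁻¹ with hw
  set K := (aC p * w + 4) / (1 + w) + aC p / (p * w) with hK
  have hw1 : 1 ≤ w := (one_le_inv₀ hv0).2 (pow_le_one₀ hr.le hr1)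
  set z := √w with hz
  have hz0 : 0 < z := Real.sqrt_pos.2 (by linarith)
  have hzz : z ^ 2 = w := Real.sq_sqrt (by linarith)
  set d := 1 - r with hd
  have hd0 : 0 ≤ d := by linarith
  set T := 5 / 4 * (1 - y ^ 2) + bC p * y ^ 2 with hT
  have hT0 : 0 < T := by positivity
  set q := (w - 1) / z with hq
  have hq0 : 0 ≤ q := div_nonneg (by linarith) hz0.le
  have hs : z * q = w - 1 := by rw [hq]; field_simp
  have hdq : d ≤ q / p := by
    rw [hq, le_div_iff₀ (by linarith), le_div_iff₀ hz0]; linarith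
  set b := 5 / 4 * (1 - y ^ 2) * (w - 1) + eC p * y ^ 2 * d with hb'
  have hb0 : b ≤ q * (z * (5 / 4) * (1 - y ^ 2) + eC p / p * y ^ 2) := by
    rw [hb', ← hs]
    have := mul_le_mul_of_nonneg_left hdq (mul_nonneg he0 hu.le)
    have e : q * (eC p / p * y ^ 2) = eC p * y ^ 2 * (q / p) := by ring
    linarith only [this, e]
  have hb0' : 0 ≤ b := by rw [hb']; positivity
  have hquad : (-2 * eC p * y * (r - 1) + 2 * (5 / 4) * (1 - y ^ 2) * (w - 1) / y) * θ -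
      (bC p + 5 / 4 * (1 - y ^ 2) / y ^ 2) * θ ^ 2 ≤ b ^ 2 / T := by
    rw [le_div_iff₀ hT0]
    have e : b ^ 2 - ((-2 * eC p * y * (r - 1) + 2 * (5 / 4) * (1 - y ^ 2) * (w - 1) / y) * θ -
        (bC p + 5 / 4 * (1 - y ^ 2) / y ^ 2) * θ ^ 2) * T = (b - T * θ / y) ^ 2 := by
      rw [hb', hT, hd]; field_simp; ring
    linarith only [e, sq_nonneg (b - T * θ / y)]
  have hb2 : b ^ 2 / T ≤ q ^ 2 * ((K - f) * (1 - y ^ 2)) := by
    rw [div_le_iff₀ hT0]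
    refine (pow_le_pow_left₀ hb0' hb0 2).trans ?_
    rw [mul_pow]
    refine le_trans (mul_le_mul_of_nonneg_left hF (sq_nonneg q)) (le_of_eq ?_)
    ring
  have hCθ : (11 / 10 * ((p : ℝ) + 4) * r - 4 * r ^ (p + 1) - 5 / 4 * ((p : ℝ) + 3) -
      5 / 4 * (1 - y ^ 2) / y ^ 2) * θ ^ 2 ≤ -((bC p + 5 / 4 * (1 - y ^ 2) / y ^ 2) * θ ^ 2) := by
    rw [← neg_mul]; exact mul_le_mul_of_nonneg_right (by linarith) (sq_nonneg θ)
  have hsK : (w - 1) ^ 2 / w * K = q ^ 2 * K := by rw [hq, div_pow, hzz]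
  have hlin : (pC p * y ^ 2 - 8 / 5) * (r - 1) ≤ N * (q / p) := by
    refine le_trans ?_ (mul_le_mul_of_nonneg_left hdq hN0)
    rw [hd]; linarith only [mul_le_mul_of_nonneg_right hN hd0]
  have hfin := linear_quad_le (show (0 : ℝ) < p by linarith only [hp1]) (mul_nonneg hf hS.le) hErr0
    (q := q) (by linarith only [hErr] : N ^ 2 ≤ 4 * (p : ℝ) ^ 2 * (f * (1 - y ^ 2)) * Err)
  rw [hsK] at hdef
  rw [inner, ← hw]
  linarith only [hdef, hCθ, hquad, hb2, hlin, hfin]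

/-- Case `r ≤ 1` beyond the centre: the linear residual pays the cross term. -/
theorem inner_le_mid (p : ℕ) (hp : 1 ≤ p) {y r θ : ℝ} (hy : y ∈ Set.Ioo (0 : ℝ) 1) (hr : 0 < r)
    (hr1 : r ≤ 1) {ζ : ℝ} (hR : 0 < pC p * y ^ 2 - 8 / 5)
    (hζ : eC p ^ 2 * y ^ 2 * (1 - r) / (pC p * y ^ 2 - 8 / 5) * y ^ 2 ≤ ζ)
    (hden : 0 < 5 / 4 * (1 - y ^ 2) + bC p * y ^ 2 - ζ)
    (hG : (5 / 4) ^ 2 * (r ^ p)⁻¹ * (1 - y ^ 2) ≤
      ((aC p * (r ^ p)⁻¹ + 4) / (1 + (r ^ p)⁻¹) + aC p / (p * (r ^ p)⁻¹)) *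
        (5 / 4 * (1 - y ^ 2) + bC p * y ^ 2 - ζ)) :
    inner p y r θ ≤ 0 := by
  have hy0 := hy.1
  have hu : 0 < y ^ 2 := by positivity
  have hS : 0 < 1 - y ^ 2 := by nlinarith [hy.2]
  have hv0 := pow_pos hr p
  have hdef := mul_le_mul_of_nonneg_left (deficit_ge p hp hr hr1) hS.le
  have hco := coef_le p hp hr.le
  set w := (r ^ p)⁻¹ with hw
  set K := (aC p * w + 4) / (1 + w) + aC p / (p * w) with hK
  have hw0 : 0 < w := inv_pos.2 hv0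
  set d := 1 - r with hd
  have hd0 : 0 ≤ d := by linarith
  set R := pC p * y ^ 2 - 8 / 5 with hRdef
  set T := 5 / 4 * (1 - y ^ 2) + bC p * y ^ 2 - ζ with hT
  set s := w - 1 with hs
  have h1 : -2 * eC p * y * (r - 1) * θ ≤ R * d + eC p ^ 2 * y ^ 2 * d / R * θ ^ 2 := by
    have e : R * d + eC p ^ 2 * y ^ 2 * d / R * θ ^ 2 - -2 * eC p * y * (r - 1) * θ =
        d * (R - eC p * y * θ) ^ 2 / R := by
      rw [hd]; field_simp; ring
    linarith only [e, div_nonneg (mul_nonneg hd0 (sq_nonneg (R - eC p * y * θ))) hR.le]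
  have h2 : eC p ^ 2 * y ^ 2 * d / R * θ ^ 2 ≤ ζ / y ^ 2 * θ ^ 2 :=
    mul_le_mul_of_nonneg_right ((le_div_iff₀ hu).2 hζ) (sq_nonneg θ)
  have h3 : 2 * (5 / 4) * (1 - y ^ 2) * s / y * θ - T / y ^ 2 * θ ^ 2 ≤
      (5 / 4 * (1 - y ^ 2) * s) ^ 2 / T := by
    have e : (5 / 4 * (1 - y ^ 2) * s) ^ 2 / T -
        (2 * (5 / 4) * (1 - y ^ 2) * s / y * θ - T / y ^ 2 * θ ^ 2) =
          (5 / 4 * (1 - y ^ 2) * s - T * θ / y) ^ 2 / T := by field_simp; ring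
    linarith only [e, div_nonneg (sq_nonneg (5 / 4 * (1 - y ^ 2) * s - T * θ / y)) hden.le]
  have h4 : (5 / 4 * (1 - y ^ 2) * s) ^ 2 / T ≤ (1 - y ^ 2) * (s ^ 2 / w * K) := by
    rw [div_le_iff₀ hden]
    have := mul_le_mul_of_nonneg_left hG (mul_nonneg (div_nonneg (sq_nonneg s) hw0.le) hS.le)
    have e : s ^ 2 / w * (1 - y ^ 2) * ((5 / 4) ^ 2 * w * (1 - y ^ 2)) =
        (5 / 4 * (1 - y ^ 2) * s) ^ 2 := by field_simp
    linarith
  have hCθ : (11 / 10 * ((p : ℝ) + 4) * r - 4 * r ^ (p + 1) - 5 / 4 * ((p : ℝ) + 3) -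
      5 / 4 * (1 - y ^ 2) / y ^ 2) * θ ^ 2 ≤
        (-(T / y ^ 2) - ζ / y ^ 2) * θ ^ 2 := by
    refine mul_le_mul_of_nonneg_right ?_ (sq_nonneg θ)
    have e : -(T / y ^ 2) - ζ / y ^ 2 = -(5 / 4 * (1 - y ^ 2) / y ^ 2) - bC p := by
      rw [hT]; field_simp; ring
    linarith
  rw [inner, ← hw, ← hs, ← hRdef, show R * (r - 1) = -(R * d) by rw [hd]; ring]
  linarith only [h1, h2, h3, h4, hdef, hCθ]

/-- Case `r ≤ 1` near the edge: only `θ ≤ 1 - y` is used. -/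
theorem inner_le_edge (p : ℕ) (hp : 2 ≤ p) {y r θ : ℝ} (hy : y ∈ Set.Ioo (0 : ℝ) 1) (hr : 0 < r)
    (hr1 : r ≤ 1) (hu : 9 / 20 ≤ y ^ 2) (hθ : θ ≤ 1 - y) : inner p y r θ ≤ 0 := by
  have hy0 := hy.1
  have hp2 : (2 : ℝ) ≤ p := by exact_mod_cast hp
  have hS : 0 < 1 - y ^ 2 := by nlinarith [hy.2]
  obtain ⟨ha0, ha1⟩ := aC_mem (show (0 : ℝ) ≤ p by linarith)
  have he0 : 0 ≤ eC p := by unfold eC; positivity
  have hv0 := pow_pos hr p
  have hex : 0 ≤ r ^ (p + 1) - 1 - ((p : ℝ) + 1) * (r - 1) := by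
    have h := one_add_mul_le_pow (a := r - 1) (by linarith) (p + 1)
    rw [add_sub_cancel] at h; push_cast at h; linarith
  have hco := coef_le p (by omega) hr.le
  have hbc : 0 ≤ bC p := by
    rw [bC, sub_nonneg, div_le_iff₀ (by linarith)]
    have : 11 / 10 * ((p : ℝ) + 4) / (4 * ((p : ℝ) + 1)) ≤ 1 := by
      rw [div_le_one (by positivity)]; linarith
    nlinarith
  set d := 1 - r with hd
  have hd0 : 0 ≤ d := by linarith
  set s := (r ^ p)⁻¹ - 1 with hs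
  have hs0 : 0 ≤ s := by
    rw [hs, sub_nonneg]; exact (one_le_inv₀ hv0).2 (pow_le_one₀ hr.le hr1)
  have hy2 : 67 / 100 ≤ y := by nlinarith
  have hyy : y * (1 - y) ≤ 2211 / 10000 := by nlinarith
  have hC2 : (11 / 10 * ((p : ℝ) + 4) * r - 4 * r ^ (p + 1) - 5 / 4 * ((p : ℝ) + 3) -
      5 / 4 * (1 - y ^ 2) / y ^ 2) * θ ^ 2 ≤ 0 :=
    mul_nonpos_of_nonpos_of_nonneg (by
      have : 0 ≤ 5 / 4 * (1 - y ^ 2) / y ^ 2 := by positivity
      linarith) (sq_nonneg θ)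
  have hA : (2 * (5 / 4) * (1 - y) / y) ≤ aC p := by
    rw [div_le_iff₀ hy0]
    have h136 : 68 / 50 ≤ aC p := by
      rw [aC, eC, le_div_iff₀ (by linarith)]; linarith
    nlinarith [mul_le_mul h136 hy2 (by norm_num) ha0]
  have hR : 2 * eC p * (y * (1 - y)) + aC p * p * (1 - y ^ 2) ≤ pC p * y ^ 2 - 8 / 5 := by
    have hpc : 0 ≤ pC p := by rw [pC]; nlinarith
    have hkey : 2 * eC p * (2211 / 10000) + aC p * p * (11 / 20) ≤ pC p * (9 / 20) - 8 / 5 := by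
      have ha : aC p * (p : ℝ) ≤ 9 / 5 * p - 88 / 100 := by
        rw [aC, eC, div_mul_eq_mul_div, div_le_iff₀ (by linarith)]; nlinarith
      simp only [pC, eC]; nlinarith
    have t1 := mul_le_mul_of_nonneg_left hyy (show 0 ≤ 2 * eC p by linarith)
    have t2 := mul_le_mul_of_nonneg_left (show 1 - y ^ 2 ≤ 11 / 20 by linarith)
      (show 0 ≤ aC p * p by positivity)
    have t3 := mul_le_mul_of_nonneg_left hu hpc
    linarith
  have hcoef : 0 ≤ -2 * eC p * y * (r - 1) + 2 * (5 / 4) * (1 - y ^ 2) * s / y := by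
    have : 0 ≤ 2 * (5 / 4) * (1 - y ^ 2) * s / y := by positivity
    rw [hd] at hd0; nlinarith [mul_nonneg (mul_nonneg he0 hy0.le) hd0]
  have hlin := mul_le_mul_of_nonneg_left hθ hcoef
  have e : (-2 * eC p * y * (r - 1) + 2 * (5 / 4) * (1 - y ^ 2) * s / y) * (1 - y) =
      2 * eC p * (y * (1 - y)) * d + (1 - y ^ 2) * s * (2 * (5 / 4) * (1 - y) / y) := by
    rw [hd]; ring
  have hA' := mul_le_mul_of_nonneg_left hA (mul_nonneg hS.le hs0)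
  have hR' := mul_le_mul_of_nonneg_right hR hd0
  have hex' := mul_nonneg hS.le hex
  have hex4 : 0 ≤ (1 - y ^ 2) * (4 * (r ^ (p + 1) - 1 - ((p : ℝ) + 1) * (r - 1))) := by
    linarith only [hex']
  rw [inner, ← hs]
  have e2 : r - 1 = -d := by rw [hd]; ring
  rw [e2] at hlin hex4 hcoef ⊢
  linarith only [hlin, e, hA', hR', hex4, hC2]

end Vale.Agent.P237.All.Transport.Upper
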