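import Vale.Agent.P237.All.Upper.Combine

/-!
P237, every dimension, upper regime: the boxes (`notes/P237h7/upper_cover.py`), with exact rational
entries, and the bound on the inner function they give in every dimension.
-/

noncomputable section

namespace Vale.Agent.P237.All.Transport.Upper

theorem near0_0 :
    NearBox (13 / 10) 0 (11 / 25) (1 / 4) (1 / 4) (121 / 2500) (93 / 200) := by
  constructor <;> norm_num [kLo, aLo, betaLo, ipT, eT]

theorem near0_1 :
    NearBox (13 / 10) (11 / 25) (7 / 10) (1 / 4) (1 / 4) (123 / 1000) (43 / 200) := by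
  constructor <;> norm_num [kLo, aLo, betaLo, ipT, eT]

theorem near0_2 :
    NearBox (13 / 10) (7 / 10) (4 / 5) (1 / 4) (1 / 4) (4 / 25) (7 / 100) := by
  constructor <;> norm_num [kLo, aLo, betaLo, ipT, eT]

theorem near0 : Near (13 / 10) (1 / 4) (1 / 4) 0 (4 / 5) :=
  (((near0_0.range (by norm_num)).append
    (near0_1.range (by norm_num))).append
    (near0_2.range (by norm_num)))

theorem mid0_0 :
    MidBox (4 / 5) (22 / 25) (1 / 4) (1 / 4) (373 / 200) (97 / 500) (37 / 500) := by
  constructor <;> norm_num [kLo, aLo, betaLo, ipT, eT, lift, core, mills]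

theorem mid0_1 :
    MidBox (22 / 25) (109 / 100) (1 / 4) (1 / 4) (2017 / 1000) (149 / 500) (327 / 1000) := by
  constructor <;> norm_num [kLo, aLo, betaLo, ipT, eT, lift, core, mills]

theorem mid0_2 :
    MidBox (109 / 100) (37 / 25) (1 / 4) (1 / 4) (563 / 250) (9 / 20) (449 / 1000) := by
  constructor <;> norm_num [kLo, aLo, betaLo, ipT, eT, lift, core, mills]

theorem mid0 : Beyond (1 / 4) (1 / 4) (4 / 5) :=
  mid0_0.cons <|
    mid0_1.cons <|
    mid0_2.cons <|
    (Beyond.empty (by norm_num) (by norm_num) (by norm_num))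

theorem near1_0 :
    NearBox (13 / 10) 0 (27 / 100) (1 / 6) (1 / 5) (3 / 200) (87 / 200) := by
  constructor <;> norm_num [kLo, aLo, betaLo, ipT, eT]

theorem near1_1 :
    NearBox (13 / 10) (27 / 100) (43 / 100) (1 / 6) (1 / 5) (37 / 1000) (69 / 200) := by
  constructor <;> norm_num [kLo, aLo, betaLo, ipT, eT]

theorem near1_2 :
    NearBox (13 / 10) (43 / 100) (61 / 100) (1 / 6) (1 / 5) (3 / 40) (21 / 100) := by
  constructor <;> norm_num [kLo, aLo, betaLo, ipT, eT]

theorem near1_3 :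
    NearBox (13 / 10) (61 / 100) (77 / 100) (1 / 6) (1 / 5) (119 / 1000) (1 / 20) := by
  constructor <;> norm_num [kLo, aLo, betaLo, ipT, eT]

theorem near1_4 :
    NearBox (13 / 10) (77 / 100) (4 / 5) (1 / 6) (1 / 5) (16 / 125) (3 / 200) := by
  constructor <;> norm_num [kLo, aLo, betaLo, ipT, eT]

theorem near1 : Near (13 / 10) (1 / 6) (1 / 5) 0 (4 / 5) :=
  (((((near1_0.range (by norm_num)).append
    (near1_1.range (by norm_num))).append
    (near1_2.range (by norm_num))).append
    (near1_3.range (by norm_num))).append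
    (near1_4.range (by norm_num)))

theorem mid1_0 :
    MidBox (4 / 5) (87 / 100) (1 / 6) (1 / 5) (371 / 200) (19 / 125) (8 / 125) := by
  constructor <;> norm_num [kLo, aLo, betaLo, ipT, eT, lift, core, mills]

theorem mid1_1 :
    MidBox (87 / 100) (101 / 100) (1 / 6) (1 / 5) (1943 / 1000) (41 / 200) (201 / 1000) := by
  constructor <;> norm_num [kLo, aLo, betaLo, ipT, eT, lift, core, mills]

theorem mid1_2 :
    MidBox (101 / 100) (119 / 100) (1 / 6) (1 / 5) (101 / 50) (71 / 250) (11 / 40) := by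
  constructor <;> norm_num [kLo, aLo, betaLo, ipT, eT, lift, core, mills]

theorem mid1_3 :
    MidBox (119 / 100) (7 / 5) (1 / 6) (1 / 5) (211 / 100) (49 / 125) (297 / 1000) := by
  constructor <;> norm_num [kLo, aLo, betaLo, ipT, eT, lift, core, mills]

theorem mid1_4 :
    MidBox (7 / 5) (171 / 100) (1 / 6) (1 / 5) (459 / 200) (9 / 20) (151 / 500) := by
  constructor <;> norm_num [kLo, aLo, betaLo, ipT, eT, lift, core, mills]

theorem mid1 : Beyond (1 / 6) (1 / 5) (4 / 5) :=
  mid1_0.cons <|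
    mid1_1.cons <|
    mid1_2.cons <|
    mid1_3.cons <|
    mid1_4.cons <|
    (Beyond.empty (by norm_num) (by norm_num) (by norm_num))

theorem near2_0 :
    NearBox (13 / 10) 0 (1 / 4) (1 / 9) (1 / 7) (9 / 1000) (17 / 40) := by
  constructor <;> norm_num [kLo, aLo, betaLo, ipT, eT]

theorem near2_1 :
    NearBox (13 / 10) (1 / 4) (43 / 100) (1 / 9) (1 / 7) (1849 / 70000) (71 / 200) := by
  constructor <;> norm_num [kLo, aLo, betaLo, ipT, eT]

theorem near2_2 :
    NearBox (13 / 10) (43 / 100) (71 / 100) (1 / 9) (1 / 7) (5041 / 70000) (41 / 200) := by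
  constructor <;> norm_num [kLo, aLo, betaLo, ipT, eT]

theorem near2_3 :
    NearBox (13 / 10) (71 / 100) (4 / 5) (1 / 9) (1 / 7) (16 / 175) (31 / 200) := by
  constructor <;> norm_num [kLo, aLo, betaLo, ipT, eT]

theorem near2 : Near (13 / 10) (1 / 9) (1 / 7) 0 (4 / 5) :=
  ((((near2_0.range (by norm_num)).append
    (near2_1.range (by norm_num))).append
    (near2_2.range (by norm_num))).append
    (near2_3.range (by norm_num)))

theorem mid2_0 :
    MidBox (4 / 5) (93 / 100) (1 / 9) (1 / 7) (1917 / 1000) (31 / 250) (21 / 200) := by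
  constructor <;> norm_num [kLo, aLo, betaLo, ipT, eT, lift, core, mills]

theorem mid2_1 :
    MidBox (93 / 100) (111 / 100) (1 / 9) (1 / 7) (999 / 500) (177 / 1000) (101 / 500) := by
  constructor <;> norm_num [kLo, aLo, betaLo, ipT, eT, lift, core, mills]

theorem mid2_2 :
    MidBox (111 / 100) (131 / 100) (1 / 9) (1 / 7) (2071 / 1000) (123 / 500) (57 / 250) := by
  constructor <;> norm_num [kLo, aLo, betaLo, ipT, eT, lift, core, mills]

theorem mid2_3 :
    MidBox (131 / 100) (38 / 25) (1 / 9) (1 / 7) (2159 / 1000) (331 / 1000) (47 / 200) := by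
  constructor <;> norm_num [kLo, aLo, betaLo, ipT, eT, lift, core, mills]

theorem mid2_4 :
    MidBox (38 / 25) (173 / 100) (1 / 9) (1 / 7) (2263 / 1000) (107 / 250) (47 / 200) := by
  constructor <;> norm_num [kLo, aLo, betaLo, ipT, eT, lift, core, mills]

theorem mid2_5 :
    MidBox (173 / 100) (203 / 100) (1 / 9) (1 / 7) (1233 / 500) (9 / 20) (29 / 125) := by
  constructor <;> norm_num [kLo, aLo, betaLo, ipT, eT, lift, core, mills]

theorem mid2 : Beyond (1 / 9) (1 / 7) (4 / 5) :=
  mid2_0.cons <|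
    mid2_1.cons <|
    mid2_2.cons <|
    mid2_3.cons <|
    mid2_4.cons <|
    mid2_5.cons <|
    (Beyond.empty (by norm_num) (by norm_num) (by norm_num))

theorem near3_0 :
    NearBox (13 / 10) 0 (1 / 4) (1 / 16) (1 / 10) (7 / 1000) (83 / 200) := by
  constructor <;> norm_num [kLo, aLo, betaLo, ipT, eT]

theorem near3_1 :
    NearBox (13 / 10) (1 / 4) (11 / 25) (1 / 16) (1 / 10) (121 / 6250) (71 / 200) := by
  constructor <;> norm_num [kLo, aLo, betaLo, ipT, eT]

theorem near3_2 :
    NearBox (13 / 10) (11 / 25) (4 / 5) (1 / 16) (1 / 10) (8 / 125) (39 / 200) := by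
  constructor <;> norm_num [kLo, aLo, betaLo, ipT, eT]

theorem near3 : Near (13 / 10) (1 / 16) (1 / 10) 0 (4 / 5) :=
  (((near3_0.range (by norm_num)).append
    (near3_1.range (by norm_num))).append
    (near3_2.range (by norm_num)))

theorem mid3_0 :
    MidBox (4 / 5) (24 / 25) (1 / 16) (1 / 10) (1949 / 1000) (93 / 1000) (53 / 500) := by
  constructor <;> norm_num [kLo, aLo, betaLo, ipT, eT, lift, core, mills]

theorem mid3_1 :
    MidBox (24 / 25) (29 / 25) (1 / 16) (1 / 10) (1013 / 500) (27 / 200) (83 / 500) := by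
  constructor <;> norm_num [kLo, aLo, betaLo, ipT, eT, lift, core, mills]

theorem mid3_2 :
    MidBox (29 / 25) (34 / 25) (1 / 16) (1 / 10) (2089 / 1000) (37 / 200) (179 / 1000) := by
  constructor <;> norm_num [kLo, aLo, betaLo, ipT, eT, lift, core, mills]

theorem mid3_3 :
    MidBox (34 / 25) (31 / 20) (1 / 16) (1 / 10) (541 / 250) (241 / 1000) (183 / 1000) := by
  constructor <;> norm_num [kLo, aLo, betaLo, ipT, eT, lift, core, mills]

theorem mid3_4 :
    MidBox (31 / 20) (173 / 100) (1 / 16) (1 / 10) (563 / 250) (3 / 10) (183 / 1000) := by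
  constructor <;> norm_num [kLo, aLo, betaLo, ipT, eT, lift, core, mills]

theorem mid3_5 :
    MidBox (173 / 100) (189 / 100) (1 / 16) (1 / 10) (117 / 50) (179 / 500) (91 / 500) := by
  constructor <;> norm_num [kLo, aLo, betaLo, ipT, eT, lift, core, mills]

theorem mid3_6 :
    MidBox (189 / 100) (51 / 25) (1 / 16) (1 / 10) (487 / 200) (417 / 1000) (9 / 50) := by
  constructor <;> norm_num [kLo, aLo, betaLo, ipT, eT, lift, core, mills]

theorem mid3_7 :
    MidBox (51 / 25) (221 / 100) (1 / 16) (1 / 10) (639 / 250) (9 / 20) (89 / 500) := by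
  constructor <;> norm_num [kLo, aLo, betaLo, ipT, eT, lift, core, mills]

theorem mid3_8 :
    MidBox (221 / 100) (61 / 25) (1 / 16) (1 / 10) (2733 / 1000) (9 / 20) (22 / 125) := by
  constructor <;> norm_num [kLo, aLo, betaLo, ipT, eT, lift, core, mills]

theorem mid3_9 :
    MidBox (61 / 25) (137 / 50) (1 / 16) (1 / 10) (2971 / 1000) (9 / 20) (43 / 250) := by
  constructor <;> norm_num [kLo, aLo, betaLo, ipT, eT, lift, core, mills]

theorem mid3 : Beyond (1 / 16) (1 / 10) (4 / 5) :=
  mid3_0.cons <|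
    mid3_1.cons <|
    mid3_2.cons <|
    mid3_3.cons <|
    mid3_4.cons <|
    mid3_5.cons <|
    mid3_6.cons <|
    mid3_7.cons <|
    mid3_8.cons <|
    mid3_9.cons <|
    (Beyond.empty (by norm_num) (by norm_num) (by norm_num))

theorem near4_0 :
    NearBox (13 / 10) 0 (29 / 100) (1 / 36) (1 / 17) (1 / 200) (21 / 50) := by
  constructor <;> norm_num [kLo, aLo, betaLo, ipT, eT]

theorem near4_1 :
    NearBox (13 / 10) (29 / 100) (57 / 100) (1 / 36) (1 / 17) (1 / 50) (17 / 50) := by
  constructor <;> norm_num [kLo, aLo, betaLo, ipT, eT]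

theorem near4_2 :
    NearBox (13 / 10) (57 / 100) (4 / 5) (1 / 36) (1 / 17) (19 / 500) (57 / 200) := by
  constructor <;> norm_num [kLo, aLo, betaLo, ipT, eT]

theorem near4 : Near (13 / 10) (1 / 36) (1 / 17) 0 (4 / 5) :=
  (((near4_0.range (by norm_num)).append
    (near4_1.range (by norm_num))).append
    (near4_2.range (by norm_num)))

theorem mid4_0 :
    MidBox (4 / 5) (51 / 50) (1 / 36) (1 / 17) (503 / 250) (31 / 500) (119 / 1000) := by
  constructor <;> norm_num [kLo, aLo, betaLo, ipT, eT, lift, core, mills]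

theorem mid4_1 :
    MidBox (51 / 50) (127 / 100) (1 / 36) (1 / 17) (523 / 250) (19 / 200) (19 / 125) := by
  constructor <;> norm_num [kLo, aLo, betaLo, ipT, eT, lift, core, mills]

theorem mid4_2 :
    MidBox (127 / 100) (151 / 100) (1 / 36) (1 / 17) (2171 / 1000) (27 / 200) (157 / 1000) := by
  constructor <;> norm_num [kLo, aLo, betaLo, ipT, eT, lift, core, mills]

theorem mid4_3 :
    MidBox (151 / 100) (87 / 50) (1 / 36) (1 / 17) (569 / 250) (179 / 1000) (79 / 500) := by
  constructor <;> norm_num [kLo, aLo, betaLo, ipT, eT, lift, core, mills]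

theorem mid4_4 :
    MidBox (87 / 50) (39 / 20) (1 / 36) (1 / 17) (2391 / 1000) (28 / 125) (157 / 1000) := by
  constructor <;> norm_num [kLo, aLo, betaLo, ipT, eT, lift, core, mills]

theorem mid4_5 :
    MidBox (39 / 20) (43 / 20) (1 / 36) (1 / 17) (63 / 25) (34 / 125) (157 / 1000) := by
  constructor <;> norm_num [kLo, aLo, betaLo, ipT, eT, lift, core, mills]

theorem mid4_6 :
    MidBox (43 / 20) (117 / 50) (1 / 36) (1 / 17) (2653 / 1000) (323 / 1000) (31 / 200) := by
  constructor <;> norm_num [kLo, aLo, betaLo, ipT, eT, lift, core, mills]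

theorem mid4_7 :
    MidBox (117 / 50) (253 / 100) (1 / 36) (1 / 17) (699 / 250) (377 / 1000) (77 / 500) := by
  constructor <;> norm_num [kLo, aLo, betaLo, ipT, eT, lift, core, mills]

theorem mid4_8 :
    MidBox (253 / 100) (273 / 100) (1 / 36) (1 / 17) (2953 / 1000) (439 / 1000) (19 / 125) := by
  constructor <;> norm_num [kLo, aLo, betaLo, ipT, eT, lift, core, mills]

theorem mid4_9 :
    MidBox (273 / 100) (299 / 100) (1 / 36) (1 / 17) (3167 / 1000) (9 / 20) (3 / 20) := by
  constructor <;> norm_num [kLo, aLo, betaLo, ipT, eT, lift, core, mills]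

theorem mid4_10 :
    MidBox (299 / 100) (333 / 100) (1 / 36) (1 / 17) (3453 / 1000) (9 / 20) (147 / 1000) := by
  constructor <;> norm_num [kLo, aLo, betaLo, ipT, eT, lift, core, mills]

theorem mid4_11 :
    MidBox (333 / 100) (189 / 50) (1 / 36) (1 / 17) (3841 / 1000) (9 / 20) (18 / 125) := by
  constructor <;> norm_num [kLo, aLo, betaLo, ipT, eT, lift, core, mills]

theorem mid4_12 :
    MidBox (189 / 50) (111 / 25) (1 / 36) (1 / 17) (4421 / 1000) (9 / 20) (7 / 50) := by
  constructor <;> norm_num [kLo, aLo, betaLo, ipT, eT, lift, core, mills]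

theorem mid4 : Beyond (1 / 36) (1 / 17) (4 / 5) :=
  mid4_0.cons <|
    mid4_1.cons <|
    mid4_2.cons <|
    mid4_3.cons <|
    mid4_4.cons <|
    mid4_5.cons <|
    mid4_6.cons <|
    mid4_7.cons <|
    mid4_8.cons <|
    mid4_9.cons <|
    mid4_10.cons <|
    mid4_11.cons <|
    mid4_12.cons <|
    (Beyond.empty (by norm_num) (by norm_num) (by norm_num))

theorem near5_0 :
    NearBox (13 / 10) 0 (33 / 100) 0 (1 / 37) (3 / 1000) (17 / 40) := by
  constructor <;> norm_num [kLo, aLo, betaLo, ipT, eT]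

theorem near5_1 :
    NearBox (13 / 10) (33 / 100) (4 / 5) 0 (1 / 37) (9 / 500) (61 / 200) := by
  constructor <;> norm_num [kLo, aLo, betaLo, ipT, eT]

theorem near5 : Near (13 / 10) 0 (1 / 37) 0 (4 / 5) :=
  ((near5_0.range (by norm_num)).append
    (near5_1.range (by norm_num)))

theorem mid5_0 :
    MidBox (4 / 5) (107 / 100) 0 (1 / 37) (413 / 200) (31 / 1000) (1 / 8) := by
  constructor <;> norm_num [kLo, aLo, betaLo, ipT, eT, lift, core, mills]

theorem mid5_1 :
    MidBox (107 / 100) (34 / 25) 0 (1 / 37) (2147 / 1000) (1 / 20) (139 / 1000) := by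
  constructor <;> norm_num [kLo, aLo, betaLo, ipT, eT, lift, core, mills]

theorem mid5_2 :
    MidBox (34 / 25) (83 / 50) 0 (1 / 37) (2267 / 1000) (3 / 40) (141 / 1000) := by
  constructor <;> norm_num [kLo, aLo, betaLo, ipT, eT, lift, core, mills]

theorem mid5_3 :
    MidBox (83 / 50) (97 / 50) 0 (1 / 37) (1203 / 500) (51 / 500) (141 / 1000) := by
  constructor <;> norm_num [kLo, aLo, betaLo, ipT, eT, lift, core, mills]

theorem mid5_4 :
    MidBox (97 / 50) (221 / 100) 0 (1 / 37) (322 / 125) (133 / 1000) (141 / 1000) := by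
  constructor <;> norm_num [kLo, aLo, betaLo, ipT, eT, lift, core, mills]

theorem mid5_5 :
    MidBox (221 / 100) (247 / 100) 0 (1 / 37) (69 / 25) (33 / 200) (7 / 50) := by
  constructor <;> norm_num [kLo, aLo, betaLo, ipT, eT, lift, core, mills]

theorem mid5_6 :
    MidBox (247 / 100) (273 / 100) 0 (1 / 37) (2959 / 1000) (101 / 500) (139 / 1000) := by
  constructor <;> norm_num [kLo, aLo, betaLo, ipT, eT, lift, core, mills]

theorem mid5_7 :
    MidBox (273 / 100) 3 0 (1 / 37) (397 / 125) (61 / 250) (69 / 500) := by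
  constructor <;> norm_num [kLo, aLo, betaLo, ipT, eT, lift, core, mills]

theorem mid5_8 :
    MidBox 3 (83 / 25) 0 (1 / 37) (861 / 250) (149 / 500) (137 / 1000) := by
  constructor <;> norm_num [kLo, aLo, betaLo, ipT, eT, lift, core, mills]

theorem mid5_9 :
    MidBox (83 / 25) (367 / 100) 0 (1 / 37) (3743 / 1000) (73 / 200) (17 / 125) := by
  constructor <;> norm_num [kLo, aLo, betaLo, ipT, eT, lift, core, mills]

theorem mid5_10 :
    MidBox (367 / 100) (203 / 50) 0 (1 / 37) (2041 / 500) (223 / 500) (67 / 500) := by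
  constructor <;> norm_num [kLo, aLo, betaLo, ipT, eT, lift, core, mills]

theorem mid5_11 :
    MidBox (203 / 50) (91 / 20) 0 (1 / 37) (903 / 200) (9 / 20) (33 / 250) := by
  constructor <;> norm_num [kLo, aLo, betaLo, ipT, eT, lift, core, mills]

theorem mid5_12 :
    MidBox (91 / 20) 5 0 (1 / 37) (983 / 200) (9 / 20) (131 / 1000) := by
  constructor <;> norm_num [kLo, aLo, betaLo, ipT, eT, lift, core, mills]

theorem mid5 : Beyond 0 (1 / 37) (4 / 5) :=
  mid5_0.cons <|
    mid5_1.cons <|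
    mid5_2.cons <|
    mid5_3.cons <|
    mid5_4.cons <|
    mid5_5.cons <|
    mid5_6.cons <|
    mid5_7.cons <|
    mid5_8.cons <|
    mid5_9.cons <|
    mid5_10.cons <|
    mid5_11.cons <|
    mid5_12.cons <|
    beyond_five

/-- A group of dimensions. -/
theorem group_le {κ t0 t1 : ℝ} (hκ : 0 ≤ κ) (h1 : Near κ t0 t1 0 (4 / 5))
    (h2 : Beyond t0 t1 (4 / 5)) {p : ℕ} (hp : 2 ≤ p) {y r θ : ℝ}
    (hy : y ∈ Set.Ioo (0 : ℝ) 1) (hr : 0 < r) (hr1 : r ≤ 1) (hθ : θ ≤ 1 - y)
    (h3 : t0 ≤ 1 / ((p : ℝ) + 2)) (h4 : 1 / ((p : ℝ) + 2) ≤ t1)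
    (hw : (r ^ p)⁻¹ * semi y ≤ wide (√((p : ℝ) + 2) * y)) :
    inner p y r θ ≤ errNum p κ (y ^ 2) / (1 - y ^ 2) := by
  have hS : 0 < 1 - y ^ 2 := by nlinarith [hy.1, hy.2]
  have hpos : 0 ≤ errNum p κ (y ^ 2) / (1 - y ^ 2) := by
    have := (lam_mem hp).1
    unfold errNum
    positivity
  rcases le_total (√((p : ℝ) + 2) * y) (4 / 5) with h | h
  · exact h1 p y r θ hp hy hr hr1 (by have := hy.1; positivity) h h3 h4 hw
  rcases le_total (y ^ 2) (9 / 20) with hu | hu
  · exact (h2 p y r θ hp hy hr hr1 h hu h3 h4 hw).trans hpos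
  · exact (inner_le_edge p hp hy hr hr1 hu hθ).trans hpos

/-- The bound on the inner function for `r ≤ 1`, in every dimension. -/
theorem inner_le_neg {p : ℕ} (hp : 2 ≤ p) {y r θ : ℝ} (hy : y ∈ Set.Ioo (0 : ℝ) 1) (hr : 0 < r)
    (hr1 : r ≤ 1) (hθ : θ ≤ 1 - y)
    (hw : (r ^ p)⁻¹ * semi y ≤ wide (√((p : ℝ) + 2) * y)) :
    inner p y r θ ≤ errNum p (13 / 10) (y ^ 2) / (1 - y ^ 2) := by
  rcases Nat.lt_or_ge p 3 with h0 | h0
  · have a : (p : ℝ) ≤ 2 := by exact_mod_cast Nat.le_of_lt_succ h0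
    have b : (2 : ℝ) ≤ p := by exact_mod_cast (by omega : 2 ≤ p)
    exact group_le (by norm_num) near0 mid0 hp hy hr hr1 hθ
      (by rw [le_div_iff₀ (by positivity)]; linarith)
      (by rw [div_le_iff₀ (by positivity)]; linarith) hw
  rcases Nat.lt_or_ge p 5 with h1 | h1
  · have a : (p : ℝ) ≤ 4 := by exact_mod_cast Nat.le_of_lt_succ h1
    have b : (3 : ℝ) ≤ p := by exact_mod_cast (by omega : 3 ≤ p)
    exact group_le (by norm_num) near1 mid1 hp hy hr hr1 hθ
      (by rw [le_div_iff₀ (by positivity)]; linarith)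
      (by rw [div_le_iff₀ (by positivity)]; linarith) hw
  rcases Nat.lt_or_ge p 8 with h2 | h2
  · have a : (p : ℝ) ≤ 7 := by exact_mod_cast Nat.le_of_lt_succ h2
    have b : (5 : ℝ) ≤ p := by exact_mod_cast (by omega : 5 ≤ p)
    exact group_le (by norm_num) near2 mid2 hp hy hr hr1 hθ
      (by rw [le_div_iff₀ (by positivity)]; linarith)
      (by rw [div_le_iff₀ (by positivity)]; linarith) hw
  rcases Nat.lt_or_ge p 15 with h3 | h3
  · have a : (p : ℝ) ≤ 14 := by exact_mod_cast Nat.le_of_lt_succ h3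
    have b : (8 : ℝ) ≤ p := by exact_mod_cast (by omega : 8 ≤ p)
    exact group_le (by norm_num) near3 mid3 hp hy hr hr1 hθ
      (by rw [le_div_iff₀ (by positivity)]; linarith)
      (by rw [div_le_iff₀ (by positivity)]; linarith) hw
  rcases Nat.lt_or_ge p 35 with h4 | h4
  · have a : (p : ℝ) ≤ 34 := by exact_mod_cast Nat.le_of_lt_succ h4
    have b : (15 : ℝ) ≤ p := by exact_mod_cast (by omega : 15 ≤ p)
    exact group_le (by norm_num) near4 mid4 hp hy hr hr1 hθ
      (by rw [le_div_iff₀ (by positivity)]; linarith)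
      (by rw [div_le_iff₀ (by positivity)]; linarith) hw
  have b : (35 : ℝ) ≤ p := by exact_mod_cast (by omega : 35 ≤ p)
  exact group_le (by norm_num) near5 mid5 hp hy hr hr1 hθ (by positivity)
    (by rw [div_le_iff₀ (by positivity)]; linarith) hw

end Vale.Agent.P237.All.Transport.Upper
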